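import Vale.Agent.P014Z.In.Eig
import Vale.Agent.P014Z.Lk.La0
import Vale.Agent.P022D.W.Tame

/-! # P014Z, block In: the Frobenius element on the leading coefficient (helper28) -/

set_option autoImplicit false
set_option linter.all false

open NumberField

noncomputable section

namespace Vale.Agent.P014Z.In.Ln

open Vale.Agent.P022 (Qb GQ)
open Vale.Agent.P027M.S (Inert)
open Vale.Agent.P022E.GW (Ov Fb)
open Vale.Agent.P022K.G2
open Vale.Agent.P004K (Ip Zp)
open Ei (Va lm)
open Lk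

section val

variable {L Γ₀ : Type} [Field L] [LinearOrderedCommGroupWithZero Γ₀] {V : Valuation L Γ₀}
  {ε : Γ₀} {x y : L}

theorem n_mul (e : ε ≤ 1) (h : V (x - 1) < ε) (h' : V (y - 1) < ε) : V (x * y - 1) < ε := by
  rw [show x * y - 1 = (x - 1) * y + (y - 1) by ring]
  exact V.map_add_lt (by rwa [map_mul, La.eq_one (h'.trans_le e), mul_one]) h'

theorem n_pow (e : ε ≤ 1) (h : V (x - 1) < ε) (n : ℕ) : V (x ^ n - 1) < ε := by
  induction n with
  | zero => simpa using zero_le.trans_lt h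
  | succ n ih => rw [pow_succ]; exact n_mul e ih h

theorem n_inv (e : ε ≤ 1) (h : V (x - 1) < ε) : V (x⁻¹ - 1) < ε := by
  have v := La.eq_one (h.trans_le e)
  have x0 : x ≠ 0 := V.ne_zero_iff.1 (by simp [v])
  rwa [show x⁻¹ - 1 = -((x - 1) * x⁻¹) by field_simp; ring, V.map_neg, map_mul, map_inv₀, v,
    inv_one, mul_one]

theorem rt_lt {p : ℕ} (hp : p.Prime) (h1 : V (p : L) < 1) (h : V (y ^ p - 1) < 1) :
    V (y - 1) < 1 := by
  have y2 : V y ≤ 1 := le_of_pow_le_pow_left₀ hp.ne_zero zero_le (by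
    rw [← map_pow, one_pow]; exact (La.eq_one h).le)
  have y3 : V (y - 1) ≤ 1 := V.map_sub_le y2 (map_one _).le
  obtain ⟨r, hr, e⟩ := La.pow_sub hp y y3
  refine lt_of_pow_lt_pow_left₀ p zero_le ?_
  rw [← map_pow, one_pow, show (y - 1) ^ p = y ^ p - 1 - p * (y - 1) * r by linear_combination -e]
  exact V.map_sub_lt h (La.mul_lt (La.mul_lt h1 y3) hr)

/-- the fixed points of the Frobenius map -/
theorem prm (O : ValuationSubring L) {p : ℕ} [hp : Fact p.Prime] (h1 : O.valuation (p : L) < 1)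
    {r : L} (hr : O.valuation r ≤ 1) (h : O.valuation (r ^ p - r) < 1) :
    ∃ n : ℤ, O.valuation (r - n) < 1 := by
  have z : ∀ a : O, IsLocalRing.residue O a = 0 ↔ O.valuation a < 1 := fun a => by
    rw [IsLocalRing.residue_eq_zero_iff, O.valuation_lt_one_iff]
  have : CharP (IsLocalRing.ResidueField O) p := (CharP.charP_iff_prime_eq_zero hp.1).2 (by
    rw [← map_natCast (IsLocalRing.residue O), z]; simpa using h1)
  let a : O := ⟨r, (O.valuation_le_one_iff r).1 hr⟩
  have e := (z (a ^ p - a)).2 h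
  rw [map_sub, map_pow, sub_eq_zero] at e
  obtain ⟨n, hn⟩ := (mem_bot_iff_intCast p _).1 ((Subfield.mem_bot_iff_pow_eq_self _ p).2 e)
  refine ⟨n, ?_⟩
  have := (z (a - n)).1 (by rw [map_sub, map_intCast, hn, sub_self])
  simpa using this

end val

variable {p : ℕ} [Fact p.Prime] {P : Ideal (𝓞 Qb)} {O : ValuationSubring Qb} (V : Va P O)
  (o : Ov p P) {φ : GQ}
include V o

theorem fr (h : Fb p P φ) {z : Qb} (hz : O.valuation z ≤ 1) : O.valuation (φ z - z ^ p) < 1 := by
  have hP := o.2.1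
  obtain ⟨s, t, h2, h3⟩ := (V.ip z).2 hz
  have h6 : s ^ p ∉ P := fun h6 => h2 (hP.mem_of_pow_mem p h6)
  have h5 : φ • s ∉ P := fun h7 => h6 (by simpa using P.sub_mem h7 (h s))
  refine (V.zp _).1 ⟨s ^ p * φ • s, s ^ p * (φ • t - t ^ p) - t ^ p * (φ • s - s ^ p),
    fun h7 => (hP.mem_or_mem h7).elim h6 h5,
    P.sub_mem (P.mul_mem_left _ (h t)) (P.mul_mem_left _ (h s)), ?_⟩
  have h7 := congrArg φ h3
  rw [map_mul] at h7
  change (s : Qb) ^ p * φ s * (φ z - z ^ p) = s ^ p * (φ t - t ^ p) - t ^ p * (φ s - s ^ p)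
  rw [← h7, ← h3]
  ring

theorem fr_pow (h : Fb p P φ) {z : Qb} (hz : O.valuation z ≤ 1) (k : ℕ) :
    O.valuation ((φ ^ k) z - z ^ p ^ k) < 1 := by
  induction k with
  | zero => simp
  | succ k ih =>
    have a := La.pow_le hz (p ^ k)
    have := O.valuation.map_add_lt (fr V o h (La.le_of ih a)) (La.pow_cg ih a p)
    rwa [sub_add_sub_cancel, ← pow_mul, ← pow_succ, ← AlgEquiv.mul_apply, ← pow_succ'] at this

/-- the residue of a unit has finite order prime to `p` -/
theorem ord {z : Qb} (hz : O.valuation z = 1) : ∃ n, ¬ p ∣ n ∧ O.valuation (z ^ n - 1) < 1 := by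
  obtain ⟨φ, h⟩ := P022D.W.exists_phi o.1 o.2.1 o.2.2
  obtain ⟨W, a, b⟩ := ex_lv' (stab_open z)
  obtain ⟨k, k0, -, m⟩ := Subgroup.exists_pow_mem_of_index_ne_zero (H := W) a.fin.index_ne_zero φ
  have := fr_pow V o h hz.le k
  have p1 : 1 ≤ p ^ k := Nat.one_le_pow _ _ o.1.pos
  rw [show (φ ^ k) z = z from b m, show z - z ^ p ^ k = -(z * (z ^ (p ^ k - 1) - 1)) by
    rw [mul_sub, ← pow_succ', Nat.sub_add_cancel p1]; ring, O.valuation.map_neg, map_mul, hz,
    one_mul] at this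
  refine ⟨_, fun d => o.1.one_lt.ne' (Nat.dvd_one.1 ?_), this⟩
  exact (Nat.dvd_sub_iff_right p1 (dvd_pow_self p k0.ne')).1 d

/-- **the Frobenius element on the leading coefficient** -/
theorem frob (h : Fb p P φ) {X y : Qb} {j m : ℕ} (j0 : j ≠ 0) (jp : j < p)
    (a : O.valuation (lm p j X) ≤ 1) (fy : ∀ t, Inert P t → oz p t = 1 → t y = y)
    (e : φ X = X ^ m * y ^ p) :
    O.valuation (((oz p φ).val : Qb) ^ j * lm p j X ^ p - m * lm p j X) < 1 := by
  have x1 := V.lm_lt o (Nat.pos_of_ne_zero j0) a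
  simp only [lm, pow_zero, div_one] at x1
  have x2 := La.eq_one x1
  have a1 := fr V o h a
  have a2 := V.lm_act o φ (La.le_of a1 (La.pow_le a p))
  have y1 : O.valuation (y ^ p - 1) < 1 := by
    have b := O.valuation.map_sub_lt (O.valuation.map_add_lt (fr V o h x2.le) (n_pow le_rfl x1 p))
      (n_pow le_rfl x1 m)
    rwa [show φ X - X ^ p + (X ^ p - 1) - (X ^ m - 1) = X ^ m * (y ^ p - 1) by
      rw [e]; ring, map_mul, map_pow, x2, one_pow, one_mul] at b
  have y3 : O.valuation (lm p 0 y) < 1 := by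
    simpa only [lm, pow_zero, div_one] using rt_lt o.1 (V.p1 o) y1
  have y4 := V.lm_lt o jp (V.lm_pth o (V.nxt o fy y3))
  have b1 := V.lm_pow o j0 a m
  have b2 := V.lm_mul o j0 (La.le_of b1 (La.mul_le (V.nat _) a)) y4.le
  have b3 := La.mul_lt' (La.pow_le (V.nat (oz p φ).val) j) a1
  have := O.valuation.map_sub_lt (O.valuation.map_add_lt (O.valuation.map_add_lt b2 b1) y4)
    (O.valuation.map_add_lt a2 b3)
  rw [← e, show ∀ A B C D E F G H : Qb, A - (B + C) + (B - D * E) + C - (A - F * G + F * (G - H)) =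
    F * H - D * E from fun A B C D E F G H => by ring] at this
  exact this

/-- two solutions are proportional -/
theorem line {a b u m : Qb} (hu : O.valuation u = 1) (hm : O.valuation m ≤ 1)
    (ha : O.valuation a = 1) (hb : O.valuation b ≤ 1)
    (h : O.valuation (u * a ^ p - m * a) < 1) (h' : O.valuation (u * b ^ p - m * b) < 1) :
    ∃ n : ℤ, O.valuation (b - n * a) < 1 := by
  have a0 : a ≠ 0 := O.valuation.ne_zero_iff.1 (by simp [ha])
  have r1 : O.valuation (b / a) ≤ 1 := by rwa [map_div₀, ha, div_one]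
  have k := O.valuation.map_sub_lt h' (La.mul_lt' r1 h)
  rw [show u * b ^ p - m * b - b / a * (u * a ^ p - m * a) = u * a ^ p * ((b / a) ^ p - b / a) by
    rw [div_pow]; field_simp; ring, map_mul, map_mul, map_pow, hu, ha, one_pow, one_mul,
    one_mul] at k
  obtain ⟨n, hn⟩ := prm O (V.p1 o) r1 k
  refine ⟨n, ?_⟩
  rwa [show b - n * a = (b / a - n) * a by field_simp, map_mul, ha, mul_one]

end Vale.Agent.P014Z.In.Ln
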