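import Vale.Agent.P014Z.In.Wld
import Vale.Agent.P014Z.In.Lin0

/-! # P014Z, block In: the rows `LGP` and `LIN` (helper28) -/

set_option autoImplicit false
set_option linter.all false

noncomputable section

namespace Vale.Agent.P014Z.In

open NumberField
open Vale.Agent.P022 (Qb GQ)
open Vale.Agent.P027M.S (Inert)
open Vale.Agent.P022D.W (dec inP_le_dec)
open Vale.Agent.P022E.GW (Ov Fb)
open Vale.Agent.P022K.G2 (zt oz oz_ne)
open Vale.Agent.P014U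
open P014Y.Mu (F)
open Ei (Va lm)
open Lk

variable [Pp] {Γ U : Subgroup GQ} {S : Finset ℕ} {N c j : ℕ} {χ : GQ → ℕ} {σ : ℕ → GQ}
  {f θ : GQ →* F} {P : Ideal (𝓞 Qb)} {x y : Qb}

namespace Ln

theorem fx_mul (h : Fx U x) (h' : Fx U y) : Fx U (x * y) :=
  ⟨mul_ne_zero h.1 h'.1, fun u m => by rw [map_mul, h.2 u m, h'.2 u m]⟩

theorem fx_pow (h : Fx U x) (n : ℕ) : Fx U (x ^ n) :=
  ⟨pow_ne_zero _ h.1, fun u m => by rw [map_pow, h.2 u m]⟩

theorem fx_div (h : Fx U x) (h' : Fx U y) : Fx U (x / y) :=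
  ⟨div_ne_zero h.1 h'.1, fun u m => by rw [map_div₀, h.2 u m, h'.2 u m]⟩

theorem nd_mul {a b : ℕ} (h : ¬ pp ∣ a) (h' : ¬ pp ∣ b) : ¬ pp ∣ a * b := fun d =>
  (pp_prime.dvd_mul.1 d).elim h h'

/-- the eigenvalue of a representative -/
theorem eg_rep (n : U.Normal) (fy : Fx U y) {g : GQ} (e : Eg U f x g) (o : ℕ) :
    Eg U f (x ^ o * y ^ pp) g := by
  obtain ⟨z, fz, e⟩ := e
  refine ⟨z ^ o * g y / y ^ (f g).val, fx_div (fx_mul (fx_pow fz o) (fy.smul n g)) (fx_pow fy _), ?_⟩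
  have := fy.1
  rw [map_mul, map_pow, map_pow, e, div_pow]
  field_simp
  ring

/-- **the normal form** -/
theorem nrm (D : Dt Γ U S N c j χ σ f θ P) {O : ValuationSubring Qb} (V : Va P O) {φ : GQ}
    (hφ : Fb pp P φ) (fx : Fx U x) (vl : Vl U P x) (eg : ∀ g ∈ dec P, Eg U f x g) :
    ∃ (y : Qb) (o : ℕ), Fx U y ∧ ¬ pp ∣ o ∧ O.valuation (lm pp j (x ^ o * y ^ pp)) ≤ 1 ∧
      O.valuation (((oz pp φ).val : Qb) ^ j * lm pp j (x ^ o * y ^ pp) ^ pp -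
        (f φ).val * lm pp j (x ^ o * y ^ pp)) < 1 := by
  obtain ⟨y, fy, a, b⟩ := vl
  have j0 : 0 < j := by have := D.ev.2.1; omega
  have v : O.valuation (x * y ^ pp) = 1 := by
    refine le_antisymm ((V.ip _).1 a) ?_
    have := (V.ip _).1 b
    rwa [map_inv₀, inv_le_one₀ (O.valuation.pos_iff.2 (fx_mul fx (fx_pow fy _)).1)] at this
  obtain ⟨o, ho, h⟩ := ord V D.ov v
  rw [mul_pow, ← pow_mul, mul_comm pp, pow_mul] at h
  have i := (V.ip _).1 (Ei.eig D.ov j0 D.ev.2.2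
    (D.ev' fx (fx_pow fy o) (fun g a => eg g (inP_le_dec a)) o) ((V.zp _).2 h))
  obtain ⟨z, fz, e⟩ := eg_rep D.nm (fx_pow fy o)
    (eg φ (P022D.W.phi_mem D.ov.1 D.ov.2.1 hφ)) o
  exact ⟨_, o, fx_pow fy o, ho, i,
    frob V D.ov hφ j0.ne' D.ev.2.2 i (fun t a b => fz.2 t (D.wild a b)) e⟩

end Ln

open Ln

/-- **row `LGP`** -/
theorem lgp : LGP := by
  rintro U P j x x' ov ⟨y, o, fy, ho, h⟩ ⟨y', o', fy', ho', h'⟩ x0 x0'
  obtain ⟨O, V⟩ := Ei.ex_va ov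
  have p0 : 0 < O.valuation ((1 - zt pp) ^ j) := O.valuation.pos_iff.2 (pow_ne_zero _ Ei.pi_ne)
  have e : O.valuation ((1 - zt pp) ^ j) ≤ 1 := La.pow_le (V.pi1 ov).le j
  rw [V.zp, map_div₀, div_lt_one₀ p0] at h h'
  refine ⟨y ^ o' / y' ^ o, o * o', fx_div (fx_pow fy _) (fx_pow fy' _), nd_mul ho ho', ?_⟩
  rw [V.zp, map_div₀, div_lt_one₀ p0]
  have := n_mul e (n_pow e h o') (n_inv e (n_pow e h' o))
  have y0 := fy'.1
  rwa [show (x ^ o * y ^ pp) ^ o' * ((x' ^ o' * y' ^ pp) ^ o)⁻¹ =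
    (x / x') ^ (o * o') * (y ^ o' / y' ^ o) ^ pp by
      rw [div_pow, div_pow]; field_simp; ring] at this

/-- **row `LIN`** -/
theorem lin : LIN := by
  intro Γ U S N c j χ σ f θ P D x x' fx fx' vl vl' eg
  obtain ⟨O, V⟩ := Ei.ex_va D.ov
  obtain ⟨φ, hφ⟩ := P022D.W.exists_phi D.ov.1 D.ov.2.1 D.ov.2.2
  obtain ⟨y, o, fy, ho, a, b⟩ := nrm D V hφ fx vl fun g m => (eg g m).1
  obtain ⟨y', o', fy', ho', a', b'⟩ := nrm D V hφ fx' vl' fun g m => (eg g m).2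
  rcases a.lt_or_eq with l | l
  · exact .inl ⟨y, o, fy, ho, (V.zp _).2 l⟩
  have j0 : j ≠ 0 := by have := D.ev.2.1; omega
  have u : O.valuation (((oz pp φ).val : Qb) ^ j) = 1 := by
    rw [map_pow, La.nat_one pp_prime (V.p1 D.ov) fun d => oz_ne (p := pp) φ (by
      rw [← ZMod.natCast_zmod_val (oz pp φ)]; exact (ZMod.natCast_eq_zero_iff _ _).2 d), one_pow]
  obtain ⟨n, hn⟩ := line V D.ov u (V.nat _) l a' b b'
  let t : ℕ := (-(o * n) / o' : ZMod pp).val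
  have o0 : (o' : ZMod pp) ≠ 0 := fun z => ho' ((ZMod.natCast_eq_zero_iff _ _).1 z)
  have ht := La.int_lt (V := O.valuation) (V.p1 D.ov) (m := o * n + t * o') (n := 0) (by
    push_cast
    rw [ZMod.natCast_zmod_val, div_mul_cancel₀ _ o0, add_neg_cancel])
  refine .inr ⟨t, y' ^ o * y ^ (t * o'), o * o', fx_mul (fx_pow fy' _) (fx_pow fy _),
    nd_mul ho ho', (V.zp _).2 ?_⟩
  have b1 := V.lm_pow D.ov j0 a' o
  have b2 := V.lm_pow D.ov j0 a (t * o')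
  have b3 := V.lm_mul D.ov j0 (La.le_of b1 (La.mul_le (V.nat _) a'))
    (La.le_of b2 (La.mul_le (V.nat _) a))
  have := O.valuation.map_add_lt (O.valuation.map_add_lt (O.valuation.map_add_lt b3 b1) b2)
    (O.valuation.map_add_lt (La.mul_lt' (V.nat o) hn) (La.mul_lt ht a))
  rw [show (x' ^ o' * y' ^ pp) ^ o * (x ^ o * y ^ pp) ^ (t * o') =
    (x' * x ^ t) ^ (o * o') * (y' ^ o * y ^ (t * o')) ^ pp by ring] at this
  convert this using 2
  push_cast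
  ring

end Vale.Agent.P014Z.In
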