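import Vale.Agent.P014Z.In.Od1
import Vale.Agent.P014Z.In.Lin

/-! # P014Z, block In: the export -/

set_option autoImplicit false

namespace Vale.Agent.P014Z.In

open Vale.Agent.P014U

theorem inj_all [Pp] : Gl.INJ := inj_of lin od1

end Vale.Agent.P014Z.In
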