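import Vale.Agent.P014Z.In.St
import Vale.Agent.P014X.Ac.Pk

/-! # P014Z, block In: the count by the socle (row `ACN`; helper64) -/

set_option autoImplicit false
set_option linter.all false

open Polynomial Finset

namespace Vale.Agent.P014Z.In

open P014X.Ac (pw nr)

namespace Ac

variable {M : Type} [AddCommGroup M]

/-- a line -/
theorem line {P K : AddSubgroup M} {p : ℕ} (p0 : 0 < p) {x : M} (hx : x ∈ K) (px : p • x ∈ P)
    (h : ∀ y ∈ K, ∃ t : ℕ, y + t • x ∈ P) : P.relIndex K ≠ 0 ∧ P.relIndex K ≤ p := by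
  let f : Fin p → K ⧸ P.addSubgroupOf K := fun t => QuotientAddGroup.mk (-((t : ℕ) • ⟨x, hx⟩))
  have sf : Function.Surjective f := fun z => by
    obtain ⟨y, rfl⟩ := QuotientAddGroup.mk_surjective z
    obtain ⟨t, ht⟩ := h y y.2
    refine ⟨⟨t % p, Nat.mod_lt _ p0⟩, QuotientAddGroup.eq.2 ?_⟩
    show -(-((t % p) • x)) + y.1 ∈ P
    have := P.sub_mem ht (P.nsmul_mem px (t / p))
    rw [← mul_nsmul] at this
    convert this using 1
    conv_rhs => rw [← Nat.div_add_mod t p, add_nsmul, Nat.div_add_mod]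
    abel
  haveI := Finite.of_surjective f sf
  exact ⟨Nat.card_pos.ne', (Nat.card_le_card_of_surjective f sf).trans_eq (Nat.card_fin p)⟩

/-- the kernels of the powers of an endomorphism -/
theorem pows {P W : AddSubgroup M} {p : ℕ} (T : AddMonoid.End M) (le : P ≤ W)
    (hP : ∀ x ∈ P, T x ∈ P) (hW : ∀ x ∈ W, T x ∈ W)
    (h : P.relIndex (W ⊓ P.comap T) ≠ 0 ∧ P.relIndex (W ⊓ P.comap T) ≤ p) (m : ℕ) :
    P.relIndex (W ⊓ P.comap (T ^ m : AddMonoid.End M)) ≠ 0 ∧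
      P.relIndex (W ⊓ P.comap (T ^ m : AddMonoid.End M)) ≤ p ^ m := by
  have pw : ∀ {A : AddSubgroup M}, (∀ x ∈ A, T x ∈ A) → ∀ (m : ℕ), ∀ x ∈ A, (T ^ m) x ∈ A :=
    fun hA m => by
      induction m with
      | zero => exact fun x hx => hx
      | succ m ih => exact fun x hx => by rw [pow_succ']; exact hA _ (ih x hx)
  induction m with
  | zero =>
    have e : P.relIndex (W ⊓ P.comap (T ^ 0 : AddMonoid.End M)) = 1 :=
      AddSubgroup.relIndex_eq_one.2 fun x hx => hx.2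
    exact ⟨e.trans_ne one_ne_zero, e.le⟩
  | succ m ih =>
    have l1 : W ⊓ P.comap (T ^ m : AddMonoid.End M) ≤
        W ⊓ P.comap (T ^ (m + 1) : AddMonoid.End M) := fun x hx =>
      ⟨hx.1, show (T ^ (m + 1)) x ∈ P by rw [pow_succ']; exact hP _ hx.2⟩
    have l2 : (W ⊓ P.comap (T ^ (m + 1) : AddMonoid.End M)).map (T ^ m : AddMonoid.End M) ≤
        W ⊓ P.comap T := by
      rintro _ ⟨x, hx, rfl⟩
      refine ⟨pw hW m x hx.1, ?_⟩
      have : (T ^ (m + 1)) x ∈ P := hx.2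
      rwa [pow_succ'] at this
    have e : (W ⊓ P.comap (T ^ m : AddMonoid.End M)).relIndex
        (W ⊓ P.comap (T ^ (m + 1) : AddMonoid.End M)) = P.relIndex
        ((W ⊓ P.comap (T ^ (m + 1) : AddMonoid.End M)).map (T ^ m : AddMonoid.End M)) := by
      refine Eq.trans ?_ (AddSubgroup.relIndex_comap _ _ _)
      refine (AddSubgroup.inf_relIndex_right _ _).symm.trans
        (Eq.trans ?_ (AddSubgroup.inf_relIndex_right _ _))
      congr 1
      exact le_antisymm (fun x hx => ⟨hx.1.2, hx.2⟩) fun x hx => ⟨⟨hx.2.1, hx.1⟩, hx.2⟩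
    have l0 : P ≤ W ⊓ P.comap (T ^ m : AddMonoid.End M) := fun x hx => ⟨le hx, pw hP m x hx⟩
    rw [← AddSubgroup.relIndex_mul_relIndex _ _ _ l0 l1, e, pow_succ]
    exact ⟨mul_ne_zero ih.1 fun z => h.1 (AddSubgroup.relIndex_eq_zero_of_le_right l2 z),
      Nat.mul_le_mul ih.2 ((AddSubgroup.relIndex_le_of_le_right l2 h.1).trans h.2)⟩

/-- the norm is a power of `g - 1` modulo `p` -/
theorem nr_eq {p : ℕ} (hp : p.Prime) (k : ℕ) (g : AddMonoid.End M) :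
    ∃ u : AddMonoid.End M, ∀ x, nr p k g x = ((g - 1) ^ ((p - 1) * p ^ k)) x + p • u x := by
  obtain ⟨h, e⟩ := P014X.Ac.Pk.poly hp k
  have a := congrArg (aeval g) e
  simp only [map_sum, map_pow, aeval_X, map_add, map_mul, map_sub, map_one, map_natCast,
    ← pow_mul] at a
  exact ⟨_, fun x => by rw [nr, a, ← nsmul_eq_mul]; rfl⟩

theorem acn (M : Type) [AddCommGroup M] (p k s : ℕ) (g : AddMonoid.End M)
    (W W₀ : AddSubgroup M) (hp : p.Prime) (l0 : pw M p ≤ W₀) (l1 : W₀ ≤ W)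
    (hg : ∀ x ∈ W, g x - x ∈ W₀) (hn : ∀ x ∈ W, nr p k g x ∈ pw M p) (i0 : W₀.relIndex W ≠ 0)
    (i1 : W₀.relIndex W ≤ p ^ s) (so : ∀ x ∈ W₀, ∀ x' ∈ W₀, g x - x ∈ pw M p →
      g x' - x' ∈ pw M p → x ∈ pw M p ∨ ∃ t : ℕ, x' + t • x ∈ pw M p) :
    (pw M p).relIndex W ≠ 0 ∧ (pw M p).relIndex W ≤ p ^ ((p - 1) * p ^ k + s) := by
  have h1 : (pw M p).relIndex (W₀ ⊓ (pw M p).comap (g - 1 : AddMonoid.End M)) ≠ 0 ∧
      (pw M p).relIndex (W₀ ⊓ (pw M p).comap (g - 1 : AddMonoid.End M)) ≤ p := by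
    by_cases c : ∃ x ∈ W₀ ⊓ (pw M p).comap (g - 1 : AddMonoid.End M), x ∉ pw M p
    · obtain ⟨x, hx, n⟩ := c
      exact line hp.pos hx ⟨x, rfl⟩ fun y hy => (so x hx.1 y hy.1 hx.2 hy.2).resolve_left n
    · push Not at c
      exact line hp.pos (zero_mem _) ⟨0, rfl⟩ fun y hy => ⟨0, by simpa using c y hy⟩
  have h2 := pows (g - 1) l0 (by
    rintro _ ⟨y, rfl⟩
    exact ⟨(g - 1) y, (map_nsmul (g - 1) p y).symm⟩) (fun x hx => hg x (l1 hx)) h1
    ((p - 1) * p ^ k)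
  obtain ⟨u, hu⟩ := nr_eq hp k g
  have l2 : W₀ ≤ (pw M p).comap ((g - 1) ^ ((p - 1) * p ^ k) : AddMonoid.End M) := fun x hx => by
    have := (pw M p).sub_mem (hn x (l1 hx)) ⟨u x, rfl⟩
    rwa [hu, nsmulAddMonoidHom_apply, add_sub_cancel_right] at this
  rw [inf_of_le_left l2] at h2
  rw [← AddSubgroup.relIndex_mul_relIndex _ _ _ l0 l1, pow_add]
  exact ⟨mul_ne_zero h2.1 i0, Nat.mul_le_mul h2.2 i1⟩

end Ac

/-- **the count by the socle** -/
theorem acn : ACN := Ac.acn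

end Vale.Agent.P014Z.In
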