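import Vale.Agent.P014Z.In.St
import Vale.Agent.P014Z.St
import Vale.Agent.P014Z.Rp.Gdr0

/-! # P014Z, block In: from the words of the export to the inner words -/

set_option autoImplicit false
set_option linter.all false

noncomputable section

namespace Vale.Agent.P014Z.In.Br

open NumberField
open Vale.Agent.P022 (Qb GQ)
open Vale.Agent.P027M.S (Inert)
open Vale.Agent.P022D.W (dec phi_mem)
open Vale.Agent.P022E.GW (Ov Fb)
open Vale.Agent.P022K.G2 (oz oz_ne)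
open Vale.Agent.P014U
open P014Y.F (Crv Fld)
open P014Y.Mu (F Rs RSE rb)
open P014Y.Bo (dg)
open Gl (Ch Ec Da Lt lv pa)

variable [Pp] {e : Crv} {η η' : Ch} {k a : ℕ} {U : Subgroup GQ} {x : Qb}

theorem pw (h : Pw U x) : Gl.Pw U x := h.imp fun _ h => ⟨h.1.2, h.2⟩

theorem pw' (n : x ≠ 0) (h : Gl.Pw U x) : Pw U x :=
  h.imp fun y h => ⟨⟨fun z => n (by rw [h.2, z, zero_pow pp_ne]), h.1⟩, h.2⟩

theorem ne0 (η : Ch) (g : GQ) : η g ≠ 0 := ((Group.isUnit g).map η).ne_zero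

theorem fer (η : Ch) (g : GQ) : η g ^ (pp - 1) = 1 := ZMod.pow_card_sub_one_eq_one (ne0 η g)

theorem ec_one (h : Ec e η η' k) {g : GQ} (r : rb e g = 1) : η g = 1 ∧ η' g = 1 := by
  rcases h.tri with ⟨C, C', i, t⟩ | ⟨C, C', i, t⟩ <;> obtain ⟨-, u, v⟩ := t g trivial <;>
    rw [r, mul_one, mul_eq_one_comm.1 i, Matrix.one_apply_eq] at u v
  exacts [⟨u.symm, v.symm⟩, ⟨v.symm, u.symm⟩]

theorem pa_one {g : GQ} (u : η g = 1) (v : η' g = 1) : pa η η' a g = 1 := by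
  ext i j
  fin_cases i <;> fin_cases j <;> simp [pa, dg, u, v]

theorem pa_det (h : ∀ g, η g * η' g = oz pp g) (g : GQ) :
    (η ^ a) g * (η' * η ^ (1 + (pp - 2) * a)) g = oz pp g := by
  have := pp_prime.two_le
  have k : η g ^ a * η g ^ ((pp - 2) * a) = 1 := by
    rw [← pow_add, show a + (pp - 2) * a = (pp - 1) * a by
      rw [show pp - 1 = pp - 2 + 1 by omega]; ring, pow_mul, fer, one_pow]
  simp only [MonoidHom.mul_apply, MonoidHom.pow_apply, pow_add, pow_one]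
  linear_combination η' g * η g * k + h g

theorem rs {S : Finset ℕ} (h : Ec e η η' k) (r : Rs (rb e) S) (a : ℕ) : Rs (pa η η' a) S :=
  ⟨⟨Subgroup.isOpen_mono (fun g m => pa_one (ec_one h m).1 (ec_one h m).2) r.opn,
    funext fun g => by
      change (Matrix.diagonal ![_, _]).det = _
      rw [Matrix.det_diagonal, Fin.prod_univ_two]
      exact (pa_det h.det g).trans (by simp [P022K.G2.om])⟩,
    r.pm, r.pr, fun g m => pa_one (ec_one h (r.unr g m)).1 (ec_one h (r.unr g m)).2⟩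

theorem fai (h : a.Coprime (orderOf η)) {g : GQ} : (η ^ a) g = 1 ↔ η g = 1 := by
  refine ⟨fun u => ?_, fun u => by rw [MonoidHom.pow_apply, u, one_pow]⟩
  have v : η g ^ orderOf η = 1 := by rw [← MonoidHom.pow_apply, pow_orderOf_eq_one]; rfl
  have := pow_gcd_eq_one.2 ⟨(MonoidHom.pow_apply η a g).symm.trans u, v⟩
  rwa [h, pow_one] at this

theorem lv_ev (h : Even k) (a : ℕ) : Even (lv k a) ∧ 2 ≤ lv k a ∧ lv k a < pp := by
  have p2 := pp_prime.two_le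
  obtain ⟨s, hs⟩ := pp_odd
  obtain ⟨t, ht⟩ := h.mul_right a
  have l := Nat.mod_lt (k * a + (pp - 2)) (show 0 < pp - 1 by have := pp_ne_two; omega)
  have m := Nat.mod_mod_of_dvd (k * a + (pp - 2)) (show 2 ∣ pp - 1 by omega)
  rw [lv, Nat.even_iff]
  omega

theorem lv_pow {u : F} (n : u ≠ 0) (k a : ℕ) : u ^ lv k a = u ^ (k * a) := by
  have := pp_prime.two_le
  have f := ZMod.pow_card_sub_one_eq_one n
  rw [lv, pow_succ, ← pow_eq_pow_mod _ f, ← pow_succ, add_assoc,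
    show pp - 2 + 1 = pp - 1 by omega, pow_add, f, mul_one]

variable {D : Da e} {b : Fld e} {n : ℕ} (L : Lt D b n)

theorem ld : Rp.Gr.Ld pp b.j L.c L.χ :=
  ⟨b.iq, Nat.pos_of_ne_zero L.lz.ly.c0, ⟨n, rfl⟩, L.lz.add, L.lz.ker⟩

theorem val0 {g : GQ} : pp ^ (n + 1) ∣ (L.χ g).val ↔ L.χ g = 0 := by
  have : NeZero (pp ^ (n + 1)) := ⟨pow_ne_zero _ pp_ne⟩
  rw [← ZMod.natCast_eq_zero_iff, ZMod.natCast_zmod_val]

theorem u_eq : L.U = P014Y.Rd.Gr.kr (ld L).add ⊓ D.η.ker :=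
  Subgroup.ext fun g => (L.ug g).trans ⟨fun h => ⟨⟨h.1, h.2.2⟩, h.2.1⟩, fun h => ⟨h.1.1, h.2, h.1.2⟩⟩

theorem nd : ¬ pp ∣ (L.χ L.γ).val := (ld L).nd (L.lz.g2 ▸ isUnit_one)

/-- **the data** -/
theorem dt (rse : RSE) (r1 : P004K.RC1) (K : Gl.Kd b D.η D.η' L.c L.χ)
    (h : a.Coprime (orderOf D.η)) : ∃ σ, Dt b.Γ L.U e.S.toFinset (n + 1) L.c (lv D.k a)
      (fun g => (L.χ g).val) σ (D.η ^ a) (D.η' * D.η ^ (1 + (pp - 2) * a)) (e.P pp) ∧
    Kk b.Γ e.S.toFinset L.c σ (D.η ^ a) (D.η' * D.η ^ (1 + (pp - 2) * a)) (e.P pp) := by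
  obtain ⟨σ, s, K⟩ := K
  have o := e.ov pp e.pm
  refine ⟨σ, ⟨L.lz.ly, n.succ_pos, P014Y.Rd.Gr.idx b.iq, rs D.ec (rse e).1 a,
    fun g => by rw [L.ug, fai h, val0], ?_, ?_, o, lv_ev D.ec.ev a, fun g i => ?_,
    fun q m => ⟨(s q m).1, ?_, (s q m).2⟩⟩, K a h⟩
  · rw [u_eq]
    exact @Subgroup.normal_inf_normal _ _ _ _ ((ld L).nrm r1) _
  · rw [u_eq]
    exact ((ld L).opn r1).inter (Subgroup.isOpen_mono (H₂ := D.η.ker)
      (fun g m => (ec_one D.ec m).1) (rse e).1.opn)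
  · rw [MonoidHom.pow_apply, D.ec.ine _ g o i, lv_pow (oz_ne g), pow_mul]
  · obtain ⟨⟨Q, oq, f⟩, -⟩ := s q m
    have d := Nat.dvd_of_mem_primeFactors m
    have i := phi_mem oq.1 oq.2.1 f
    have u : D.η (σ q) = 1 := (L.lz.hc q Q oq d i).2
    have v := D.ec.det (σ q)
    rw [u, one_mul, Rp.Gr.dec_oz oq (Eq.trans ((L.lz.ly.out q oq.1 d).2.2.of_dvd
      (dvd_pow_self _ n.succ_ne_zero)) (Nat.mod_eq_of_lt pp_prime.one_lt)) i] at v
    exact pa_one u v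

theorem vf (w : Gl.Wv b D.η L.χ L.U a x) :
    Vf b.Γ L.U (n + 1) (fun g => (L.χ g).val) (D.η ^ a) x := by
  refine ⟨⟨w.ne, w.fix⟩, fun g m d => ?_, fun l Q o => ?_⟩
  · obtain ⟨y, f, t⟩ := pw' (div_ne_zero ((map_ne_zero g).2 w.ne) (pow_ne_zero _ w.ne))
      (w.eig g m ((val0 L).1 d))
    exact ⟨y, f, by rw [← t, MonoidHom.pow_apply, mul_div_cancel₀ _ (pow_ne_zero _ w.ne)]⟩
  · obtain ⟨y, y0, f, u, v⟩ := w.val l Q o
    exact ⟨y⁻¹, ⟨inv_ne_zero y0, fun g m => by rw [map_inv₀, f g m]⟩,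
      by rwa [inv_pow, ← div_eq_mul_inv], by rwa [inv_pow, ← div_eq_mul_inv, inv_div]⟩

end Vale.Agent.P014Z.In.Br
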