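import Vale.Agent.P014Z.In.Gi
import Vale.Agent.P014Z.In.Brg
import Vale.Agent.P014Y.Mu.Rse
import Vale.Agent.P004K.Rc.All

/-! # P014Z, block In: the export from the last rows -/

set_option autoImplicit false
set_option linter.all false

noncomputable section

namespace Vale.Agent.P014Z.In

open Vale.Agent.P022 (Qb GQ)
open Vale.Agent.P014U

variable [Pp]

/-- the order of the leading terms -/
def OD : Prop := ∀ Γ U S N c j χ σ f θ P, Dt Γ U S N c j χ σ f θ P → Kk Γ S c σ f θ P →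
  ∀ γ ∈ Γ, f γ = 1 → ¬ pp ∣ χ γ → ∀ x (y : ℕ → Qb) l, Vf Γ U N χ f x →
  (∀ m : ℕ, Gl.Lm P j ((γ ^ m) x) (y m)) → l < pp ^ N → Gl.Od P (pp ^ N) y l →
  Pw U ((Gl.dT γ)^[pp ^ N - l] x)

theorem it_ne (γ : GQ) {x : Qb} (h : x ≠ 0) (i : ℕ) : (Gl.dT γ)^[i] x ≠ 0 := by
  induction i with
  | zero => exact h
  | succ i ih =>
    rw [Function.iterate_succ_apply']
    exact div_ne_zero ((map_ne_zero γ).2 ih) ih

open Br in
theorem inj_of (lin : LIN) (od : OD) : Gl.INJ := fun e D b n L K a h => by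
  obtain ⟨σ, d, k⟩ := dt L P014Y.Mu.rse P004K.x_rc1 K h
  have f1 := (fai h).2 L.lz.g1
  refine ⟨fun i _ => ?_, fun x y l w m lt o =>
    pw (od _ _ _ _ _ _ _ _ _ _ _ d k _ L.lz.g0 f1 (nd L) x y l (vf L w) m lt o)⟩
  obtain ⟨Z, fz, κ, cd, H⟩ := bd lin d k L.lz.g0 f1 (nd L) i
  exact ⟨Z, fz, κ, cd, fun x y u v s t q => pw (H x y (vf L u) (vf L v)
    (pw' (it_ne _ u.ne i) s) (pw' (it_ne _ v.ne i) t) q)⟩

end Vale.Agent.P014Z.In
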