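import Vale.Agent.P014Z.In.St

/-! # P014Z, block In: injectivity and the count -/

set_option autoImplicit false
set_option linter.all false

noncomputable section

namespace Vale.Agent.P014Z.In

open NumberField
open scoped Classical
open Vale.Agent.P022 (Qb GQ)
open Vale.Agent.P027M.S (Inert)
open Vale.Agent.P022D.W (dec)
open Vale.Agent.P022E.GW (Ov Fb)
open Vale.Agent.P022K.G2
open Vale.Agent.P014U
open P014Y.Mu (F Ly)
open P014X.Ac (pw nr)

namespace Cn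

theorem nil {M : Type} [AddCommGroup M] {p n : ℕ} (hp : p.Prime) (g : AddMonoid.End M) {x : M}
    (h : (g ^ p ^ n) x = x) : ((g - 1) ^ p ^ n) x ∈ pw M p := by
  obtain ⟨r, e⟩ := (Commute.one_right (g - 1)).exists_add_pow_prime_pow_eq hp n
  rw [sub_add_cancel, one_pow] at e
  rw [e, mul_assoc, mul_assoc] at h
  change ((g - 1) ^ p ^ n) x + x + ((p : AddMonoid.End M) * ((g - 1) * (1 * r))) x = x at h
  rw [AddMonoid.End.coe_mul, Function.comp_apply, AddMonoid.End.natCast_apply] at h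
  exact ⟨-_, by
    rw [nsmulAddMonoidHom_apply, smul_neg]
    exact (eq_neg_of_add_eq_zero_left (by rwa [add_right_comm, add_eq_right] at h)).symm⟩

variable [Pp] {Γ U : Subgroup GQ} {S : Finset ℕ} {N c j : ℕ} {χ : GQ → ℕ} {σ : ℕ → GQ}
  {f θ : GQ →* F} {P : Ideal (𝓞 Qb)} {x y : Qb} {γ g : GQ}

theorem fx_mul (a : Fx U x) (b : Fx U y) : Fx U (x * y) :=
  ⟨mul_ne_zero a.1 b.1, fun u m => by rw [map_mul, a.2 u m, b.2 u m]⟩

theorem fx_pow (a : Fx U x) (n : ℕ) : Fx U (x ^ n) :=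
  ⟨pow_ne_zero _ a.1, fun u m => by rw [map_pow, a.2 u m]⟩

theorem fx_one : Fx U 1 := ⟨one_ne_zero, fun u _ => map_one u⟩

theorem fx_sm (nm : U.Normal) (a : Fx U x) (g : GQ) : Fx U (g x) :=
  ⟨(map_ne_zero g).2 a.1, fun u m => by simpa using congrArg g (a.2 _ (nm.conj_mem' u m g))⟩

theorem e_pow (y : Ly Γ S N c χ) (m : γ ∈ Γ) (n : ℕ) :
    (χ (γ ^ n) : ZMod (pp ^ N)) = n * χ γ := by
  have ad := fun g a h b => (ZMod.natCast_eq_natCast_iff _ _ _).2 (y.add g a h b)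
  induction n with
  | zero =>
    have := ad 1 (one_mem _) 1 (one_mem _)
    rw [mul_one, Nat.cast_add, left_eq_add] at this
    rw [pow_zero, this, Nat.cast_zero, zero_mul]
  | succ n ih => rw [pow_succ, ad _ (pow_mem m n) _ m, Nat.cast_add, ih]; push_cast; ring

/-- powers of `γ` represent the layer -/
theorem split (y : Ly Γ S N c χ) (m : γ ∈ Γ) (u : ¬ pp ∣ χ γ) (mg : g ∈ Γ) :
    ∃ n, ∃ δ ∈ Γ, pp ^ N ∣ χ δ ∧ g = γ ^ n * δ := by
  have : NeZero (pp ^ N) := ⟨pow_ne_zero _ pp_prime.ne_zero⟩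
  obtain ⟨v, hv⟩ : IsUnit (χ γ : ZMod (pp ^ N)) := (ZMod.isUnit_iff_coprime _ _).2
    (((Nat.Prime.coprime_iff_not_dvd pp_prime).2 u).symm.pow_right _)
  set n := ((χ g : ZMod (pp ^ N)) * ↑v⁻¹).val with hn
  have md := mul_mem (inv_mem (pow_mem m n)) mg
  refine ⟨n, _, md, (ZMod.natCast_eq_zero_iff _ _).1 ?_, (mul_inv_cancel_left _ _).symm⟩
  have := (ZMod.natCast_eq_natCast_iff _ _ _).2 (y.add _ (pow_mem m n) _ md)
  rw [mul_inv_cancel_left, Nat.cast_add, e_pow y m, hn, ZMod.natCast_zmod_val, ← hv,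
    Units.inv_mul_cancel_right, left_eq_add] at this
  exact this

/-- the socle consists of eigenvectors -/
theorem eg (D : Dt Γ U S N c j χ σ f θ P) (m : γ ∈ Γ) (f1 : f γ = 1) (u : ¬ pp ∣ χ γ)
    (v : Vf Γ U N χ f x) (s : Pw U (γ x / x)) (g : GQ) (mg : g ∈ Γ) : Eg U f x g := by
  obtain ⟨y, hy, e⟩ := s
  rw [div_eq_iff v.fx.1] at e
  have k : ∀ n : ℕ, ∃ t, Fx U t ∧ (γ ^ n) x = x * t ^ pp := fun n => by
    induction n with
    | zero => exact ⟨1, fx_one, by simp⟩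
    | succ n ih =>
      obtain ⟨t, ht, e'⟩ := ih
      exact ⟨y * γ t, fx_mul hy (fx_sm D.nm ht γ), by
        rw [pow_succ', AlgEquiv.mul_apply, e', map_mul, map_pow, e]; ring⟩
  obtain ⟨n, δ, md, d, rfl⟩ := split D.ly m u mg
  obtain ⟨t, ht, e1⟩ := k n
  obtain ⟨w, hw, e2⟩ := v.eg δ md d
  refine ⟨t ^ (f δ).val * (γ ^ n) w, fx_mul (fx_pow ht _) (fx_sm D.nm hw _), ?_⟩
  rw [map_mul, map_pow, f1, one_pow, one_mul, AlgEquiv.mul_apply, e2, map_mul, map_pow, map_pow, e1]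
  ring

theorem ex_gen (D : Dt Γ U S N c j χ σ f θ P) : ∃ γ ∈ Γ, f γ = 1 ∧ ¬ pp ∣ χ γ := by
  obtain ⟨φ, a⟩ := P022D.W.exists_phi D.ov.1 D.ov.2.1 D.ov.2.2
  obtain ⟨le, u⟩ := D.ly.fro pp D.rs.pm P D.ov
  have m := le (P022D.W.phi_mem D.ov.1 D.ov.2.1 a)
  refine ⟨φ ^ (pp - 1), pow_mem m _, ?_, fun d => u φ a ?_⟩
  · rw [map_pow]
    exact ZMod.pow_card_sub_one_eq_one ((Group.isUnit φ).map f).ne_zero
  · have := e_pow D.ly m (pp - 1)
    rw [← Nat.cast_mul, ZMod.natCast_eq_natCast_iff] at this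
    have := ((this.of_dvd (dvd_pow_self _ D.N0.ne')).dvd_iff dvd_rfl).1 d
    exact (pp_prime.dvd_mul.1 this).resolve_left fun k => by
      have := pp_prime.two_le
      exact absurd (Nat.le_of_dvd (by omega) k) (by omega)

theorem pow_U (D : Dt Γ U S N c j χ σ f θ P) (m : γ ∈ Γ) (f1 : f γ = 1) : γ ^ pp ^ N ∈ U :=
  (D.mem _).2 ⟨pow_mem m _, by rw [map_pow, f1, one_pow], (ZMod.natCast_eq_zero_iff _ _).1 (by
    rw [e_pow D.ly m, ZMod.natCast_self, zero_mul])⟩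

variable {H : Type} [Field H] (jH : H →+* Qb)

/-- the value -/
def vv (x : Additive Hˣ) : Qb := jH (Additive.toMul x : Hˣ)

theorem vv_add (a b : Additive Hˣ) : vv jH (a + b) = vv jH a * vv jH b := by simp [vv]

theorem vv_sub (a b : Additive Hˣ) : vv jH (a - b) = vv jH a / vv jH b := by simp [vv]

theorem vv_smul (n : ℕ) (a : Additive Hˣ) : vv jH (n • a) = vv jH a ^ n := by simp [vv]

theorem vv_zero : vv jH 0 = 1 := by simp [vv]

theorem vv_inj {a b : Additive Hˣ} (h : vv jH a = vv jH b) : a = b :=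
  Additive.toMul.injective (Units.ext (jH.injective h))

variable {jH} (hH : ∀ x, x ∈ jH.range ↔ ∀ u ∈ U, u x = x)
include hH

theorem fx (a : Additive Hˣ) : Fx U (vv jH a) :=
  ⟨(map_ne_zero jH).2 (Units.ne_zero _), (hH _).1 ⟨_, rfl⟩⟩

theorem ex_v (h : Fx U x) : ∃ a, vv jH a = x := by
  obtain ⟨a, rfl⟩ := (hH x).2 h.2
  exact ⟨.ofMul (Units.mk0 a ((map_ne_zero jH).1 h.1)), rfl⟩

theorem pw_iff {a : Additive Hˣ} : a ∈ pw (Additive Hˣ) pp ↔ Pw U (vv jH a) := by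
  refine ⟨?_, fun ⟨y, hy, e⟩ => ?_⟩
  · rintro ⟨b, rfl⟩
    exact ⟨_, fx hH b, vv_smul ..⟩
  · obtain ⟨b, rfl⟩ := ex_v hH hy
    exact ⟨b, vv_inj jH ((vv_smul ..).trans e.symm)⟩

theorem ex_g (nm : U.Normal) (γ : GQ) : ∃ g : AddMonoid.End (Additive Hˣ),
    (∀ a, vv jH (g a) = γ (vv jH a)) ∧ ∀ n a, vv jH ((g ^ n) a) = (γ ^ n) (vv jH a) := by
  choose s e using fun a => ex_v hH (fx_sm nm (fx hH a) γ)
  obtain ⟨g, hg⟩ : ∃ g : AddMonoid.End (Additive Hˣ), ∀ a, vv jH (g a) = γ (vv jH a) :=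
    ⟨AddMonoidHom.mk' s fun a b => vv_inj jH (by simp only [e, vv_add, map_mul]), e⟩
  refine ⟨g, hg, fun n => ?_⟩
  induction n with
  | zero => exact fun _ => rfl
  | succ n ih => exact fun a => by rw [pow_succ', pow_succ', AlgEquiv.mul_apply, ← ih]; exact hg _

theorem inj0 (si : SI) (rz : RZ) (lgp : LGP) (D : Dt Γ U S N c j χ σ f θ P)
    (K : Kk Γ S c σ f θ P) (v : Vf Γ U N χ f x) (l0 : ∀ g ∈ Γ, L0 U P j (g x)) (r0 : Rz U c x) :
    Pw U x := by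
  obtain ⟨γ, m, f1, u⟩ := ex_gen D
  obtain ⟨g, g1, hg⟩ := ex_g hH D.nm γ
  obtain ⟨a, rfl⟩ := ex_v hH v.fx
  have t : ∀ a, vv jH ((g - 1) a) = γ (vv jH a) / vv jH a := fun a =>
    (vv_sub jH (g a) a).trans (by rw [g1])
  have z := nil pp_prime g (n := N) (vv_inj jH ((hg _ a).trans (v.fx.2 _ (pow_U D m f1))))
  generalize pp ^ N = n at z
  induction n generalizing a with
  | zero => exact (pw_iff hH).1 z
  | succ n ih =>
    obtain ⟨v', r'⟩ := (rz _ _ _ _ _ _ _ _ _ _ _ D).2 _ v γ m f1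
    refine si _ _ _ _ _ _ _ _ _ _ _ D K _ v (eg D m f1 u v ?_) (l0 1 (one_mem _)) r0
    rw [← t] at v' r' ⊢
    refine ih _ v' (fun s ms => ?_) r' (by rw [pow_succ] at z; exact z)
    rw [t, map_div₀]
    rw [← AlgEquiv.mul_apply]
    exact lgp _ _ _ _ _ D.ov (l0 _ (mul_mem ms m)) (l0 s ms) (fx_sm D.nm v.fx _).1
      (fx_sm D.nm v.fx _).1

omit hH in
theorem vv_sum (g : ℕ → AddMonoid.End (Additive Hˣ)) (n : ℕ) (a : Additive Hˣ) :
    vv jH ((∑ i ∈ Finset.range n, g i) a) = ∏ i ∈ Finset.range n, vv jH (g i a) := by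
  induction n with
  | zero => exact vv_zero jH
  | succ n ih => rw [Finset.sum_range_succ, Finset.prod_range_succ, ← ih, ← vv_add]; rfl

end Cn

open Cn

/-- **injectivity** -/
theorem inj [Pp] (si : SI) (rz : RZ) (lgp : LGP) : INJ :=
  fun _ U _ _ _ _ _ _ _ _ _ D K _ v l0 r0 =>
  inj0 (jH := (IntermediateField.fixedField U).val.toRingHom)
    (fun x => ⟨fun ⟨a, e⟩ => e ▸ (IntermediateField.mem_fixedField_iff _ _).1 a.2,
      fun h => ⟨⟨x, (IntermediateField.mem_fixedField_iff _ _).2 h⟩, rfl⟩⟩) si rz lgp D K v l0 r0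

/-- **the count** -/
theorem cnt [Pp] (si : SI) (rz : RZ) (lin : LIN) (acn : ACN) : CNT := by
  intro Γ U S k c j χ σ f θ P D K H _ jH hH γ m f1 u W le hW
  obtain ⟨g, g1, hg⟩ := ex_g hH D.nm γ
  obtain ⟨⟨φ, hφ, r1⟩, r2⟩ := rz _ _ _ _ _ _ _ _ _ _ _ D
  have gz := fun i => mem_Gz.2 (hφ i).2.1
  have fx' := fun (a : Additive Hˣ) i => (fx hH a).2 _ (hφ i).1
  let ρ : Additive Hˣ →+ (c.primeFactors × Bool → F) := AddMonoidHom.mk'
    (fun a i => ka pp (vv jH a) (φ i)) fun a b => funext fun i => by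
      rw [vv_add]; exact ka_mul (fx hH a).1 (fx hH b).1 (gz i) (fx' a i) (fx' b i)
  have k0 : ∀ a, ρ a = 0 ↔ ∀ i, φ i (rt pp (vv jH a)) = rt pp (vv jH a) := fun a =>
    funext_iff.trans (forall_congr' fun i =>
      ka_eq_zero (fx hH a).1 (rt_pow pp _) (gz i) (fx' a i))
  have t : ∀ a, vv jH (g a - a) = γ (vv jH a) / vv jH a := fun a =>
    (vv_sub jH (g a) a).trans (by rw [g1])
  have vf : ∀ a ∈ W.toAddSubgroup, Vf Γ U (k + 1) χ f (vv jH a) := fun a h => (hW _ h).2.1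
  have rz0 : ∀ a ∈ W.toAddSubgroup ⊓ ρ.ker, Rz U c (vv jH a) := fun a h => by
    have := r1 (rt pp (vv jH a))
    rw [rt_pow] at this
    exact this (vf a h.1) ((k0 a).1 h.2)
  have e : (W.toAddSubgroup ⊓ ρ.ker).relIndex W.toAddSubgroup = Nat.card (W.toAddSubgroup.map ρ) := by
    rw [AddSubgroup.inf_relIndex_left, AddSubgroup.relIndex_ker]
  have soc : ∀ a ∈ W.toAddSubgroup ⊓ ρ.ker, g a - a ∈ pw _ pp → L0 U P j (vv jH a) → a ∈ pw _ pp :=
    fun a h s l => (pw_iff hH).2 (si _ _ _ _ _ _ _ _ _ _ _ D K _ (vf a h.1)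
      (eg D m f1 u (vf a h.1) (t a ▸ (pw_iff hH).1 s)) l (rz0 a h))
  refine acn _ pp k _ g W.toAddSubgroup (W.toAddSubgroup ⊓ ρ.ker) pp_prime ?_ inf_le_left
    (fun a h => ⟨?_, ?_⟩) (fun a h => ?_) (e.trans_ne Nat.card_pos.ne') (e.trans_le ?_)
    fun a h a' h' s s' => ?_
  · rintro _ ⟨b, rfl⟩
    refine ⟨le ⟨_, rfl⟩, funext fun i => ?_⟩
    change ka pp (vv jH (pp • b)) (φ i) = 0
    rw [vv_smul]
    exact ka_pp (fx hH b).1 (gz i) (fx' b i)
  · obtain ⟨y, my, e⟩ := (hW _ h).1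
    rw [show g a = .ofMul y from vv_inj jH ((g1 a).trans e)]
    exact W.toAddSubgroup.sub_mem my h
  · refine (k0 _).2 fun i => ?_
    obtain ⟨q, Q, o, d, m'⟩ := (hφ i).2.2
    exact (r2 _ (vf a h) γ m f1).2 q Q o d _ (by rw [rt_pow, t]) _ (hφ i).1 m'
  · rw [pw_iff hH, nr, vv_sum]
    simp only [hg]
    simp only [pow_mul]
    exact (hW _ h).2.2
  · refine (Nat.card_le_card_of_injective _ Subtype.val_injective).trans_eq ?_
    rw [Nat.card_fun, Nat.card_zmod, Nat.card_prod, Nat.card_eq_fintype_card, Fintype.card_coe,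
      Nat.card_eq_fintype_card, Fintype.card_bool, mul_comm]
  · have le' := (D.ly.fro pp D.rs.pm P D.ov).1
    refine (lin _ _ _ _ _ _ _ _ _ _ _ D _ _ (fx hH a) (fx hH a') ((vf a h.1).vl _ _ D.ov)
      ((vf a' h'.1).vl _ _ D.ov) fun s1 d => ⟨eg D m f1 u (vf a h.1) (t a ▸ (pw_iff hH).1 s) _
        (le' d), eg D m f1 u (vf a' h'.1) (t a' ▸ (pw_iff hH).1 s') _ (le' d)⟩).imp
      (soc a h s) fun ⟨n, l⟩ => ⟨n, soc _ (add_mem h' (nsmul_mem h n)) ?_ ?_⟩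
    · convert add_mem s' (nsmul_mem s n) using 1
      rw [map_add, map_nsmul, nsmul_sub]; abel
    · rwa [vv_add, vv_smul]

end Vale.Agent.P014Z.In
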