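import Vale.Agent.P004K.St2
import Vale.Agent.P022K.G2.Kum
import Vale.Agent.P022.H916.Fld
import Vale.Agent.P027M.S.Loc

/-! # P014Z, block IN: the eigenvalues of the inertia group on the principal units -/

set_option autoImplicit false
set_option linter.all false

open NumberField IsDedekindDomain WithZero

noncomputable section

namespace Vale.Agent.P014Z.In.Ei

open Vale.Agent.P022 Vale.Agent.P022.H916
open Vale.Agent.P027M.S (Inert)
open Vale.Agent.P027M.S.Loc (jQ mem_GK belowQ)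
open Vale.Agent.P022E.GW (Ov)
open Vale.Agent.P022K.G2
open Vale.Agent.P004K (Ip Zp)

section nf

variable {K L : Type} [Field K] [NumberField K] [Field L] [NumberField L] [Algebra K L]
  [IsGalois K L] (w : HeightOneSpectrum (𝓞 L))

theorem vk : ∃ v : HeightOneSpectrum (𝓞 K), v.asIdeal = w.asIdeal.under (𝓞 K) ∧ ∀ a : K,
    w.valuation L (algebraMap K L a) =
      v.valuation K a ^ Nat.card (w.asIdeal.inertia (L ≃ₐ[K] L)) := by
  have := w.isPrime
  let v : HeightOneSpectrum (𝓞 K) :=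
    ⟨w.asIdeal.under (𝓞 K), inferInstance, mt Ideal.eq_bot_of_comap_eq_bot w.ne_bot⟩
  have : w.asIdeal.LiesOver v.asIdeal := ⟨rfl⟩
  have := v.isMaximal
  have : Finite (𝓞 K ⧸ v.asIdeal) := Ideal.finiteQuotientOfFreeOfNeBot _ v.ne_bot
  have he := Ideal.card_inertia_eq_ramificationIdxIn (G := L ≃ₐ[K] L) v.asIdeal w.asIdeal
  rw [Ideal.ramificationIdxIn_eq_ramificationIdx v.asIdeal w.asIdeal (L ≃ₐ[K] L),
    ← Ideal.ramificationIdx'_eq_ramificationIdx _ _ v.ne_bot] at he
  exact ⟨v, rfl, fun a => by rw [he, HeightOneSpectrum.valuation_liesOver L v w a]⟩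

theorem dis0 (J : Subgroup (L ≃ₐ[K] L)) (hJ : J ≤ w.asIdeal.inertia (L ≃ₐ[K] L)) {z : L}
    (hz : ∀ s ∈ J, s z = z) (h : w.valuation L z < 1) :
    w.valuation L z ≤ exp (-1 : ℤ) ^ Nat.card J := by
  let E := IntermediateField.fixedField J
  obtain ⟨v, -, hv⟩ := vk (K := E) w
  have t : w.asIdeal.inertia (L ≃ₐ[E] L) = ⊤ := eq_top_iff.2 fun s _ x => by
    have m : s.restrictScalars K ∈ J := by
      rw [← IntermediateField.fixingSubgroup_fixedField J,
        IntermediateField.mem_fixingSubgroup_iff]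
      exact fun y hy => s.commutes ⟨y, hy⟩
    exact hJ m x
  have c : Nat.card (w.asIdeal.inertia (L ≃ₐ[E] L)) = Nat.card J := by
    rw [t, Subgroup.card_top, IsGalois.card_aut_eq_finrank,
      IntermediateField.finrank_fixedField_eq_card]
  have e := hv ⟨z, (IntermediateField.mem_fixedField_iff _ _).2 hz⟩
  rw [c] at e
  change w.valuation L z = _ at e
  rw [e] at h ⊢
  refine pow_le_pow_left₀ zero_le' ((lt_mul_exp_iff_le exp_ne_zero).1 ?_) _
  rw [← exp_add, neg_add_cancel, exp_zero]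
  exact lt_of_pow_lt_pow_left₀ _ zero_le' (h.trans_eq (one_pow _).symm)

end nf

/-- the valuation ring of a prime -/
structure Va (P : Ideal (𝓞 Qb)) (O : ValuationSubring Qb) : Prop where
  ip : ∀ x, Ip P x ↔ O.valuation x ≤ 1
  zp : ∀ x, Zp P x ↔ O.valuation x < 1
  ine : ∀ g, Inert P g → ∀ x, O.valuation x ≤ 1 → O.valuation (g x - x) < 1
  int : ∀ x : 𝓞 Qb, O.valuation x ≤ 1

variable {p : ℕ} {P : Ideal (𝓞 Qb)} {O : ValuationSubring Qb}

open P004M.TE (dich loc lt_one) in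
theorem ex_va (o : Ov p P) : ∃ O, Va P O := by
  have hP := o.2.1
  have h1 : ∀ x : Qb, x ∈ loc hP ∨ x⁻¹ ∈ loc hP := by
    intro x
    obtain ⟨s, t, h2, h3 | h3⟩ := dich hP o.1.ne_zero o.2.2 x
    · exact Or.inl ⟨s, t, h2, h3⟩
    · by_cases hx : x = 0
      · exact Or.inl (hx ▸ (loc hP).zero_mem)
      · refine Or.inr ⟨s, t, h2, ?_⟩
        rw [← h3, mul_comm x, mul_inv_cancel_right₀ hx]
  have hO : ∀ x, x ∈ ValuationSubring.ofSubring (loc hP) h1 ↔ x ∈ loc hP := fun x => Iff.rfl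
  generalize ValuationSubring.ofSubring (loc hP) h1 = O at hO
  refine ⟨O, fun x => ((O.valuation_le_one_iff x).trans (hO x)).symm,
    fun x => ⟨fun ⟨s, t, a, b, e⟩ => lt_one hP hO a b e, fun k => ?_⟩, fun g h4 x hx => ?_,
    fun x => (O.valuation_le_one_iff _).2 ((hO x).2 ⟨1, x, hP.one_notMem, one_mul _⟩)⟩
  · obtain ⟨s, t, a, e⟩ := (hO x).1 ((O.valuation_le_one_iff x).1 k.le)
    refine ⟨s, t, a, by_contra fun b => ?_, e⟩
    have x0 : x ≠ 0 := fun z => b (by
      rw [show t = 0 from RingOfIntegers.ext (by rw [← e, z, mul_zero]; rfl)]; exact P.zero_mem)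
    have := (O.valuation_le_one_iff _).2 ((hO x⁻¹).2 ⟨t, s, b, by
      rw [← e, mul_inv_cancel_right₀ x0]⟩)
    rw [map_inv₀, inv_le_one₀ (zero_lt_iff.2 ((map_ne_zero _).2 x0))] at this
    exact this.not_gt k
  · obtain ⟨s, t, h2, h3⟩ := (hO x).mp ((O.valuation_le_one_iff x).1 hx)
    have h5 : g • s ∉ P := fun h6 => h2 (by simpa using P.sub_mem h6 (h4 s))
    refine lt_one hP hO (s := s * g • s) (t := s * (g • t - t) - t * (g • s - s))
      (fun h6 => (hP.mem_or_mem h6).elim h2 h5)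
      (P.sub_mem (P.mul_mem_left _ (h4 t)) (P.mul_mem_left _ (h4 s))) ?_
    have h7 := congrArg g h3
    rw [map_mul] at h7
    change (s : Qb) * g s * (g x - x) = s * (g t - t) - t * (g s - s)
    rw [← h7, ← h3]
    ring

variable [Fact p.Prime]

/-- `p` and `(1 - ζ) ^ (p - 1)` -/
theorem ass {R : Type} [CommRing R] [IsDomain R] {ζ : R} (h : IsPrimitiveRoot ζ p) :
    Associated ((1 - ζ) ^ (p - 1)) (p : R) := by
  have hp : p.Prime := Fact.out
  obtain ⟨n, rfl⟩ : ∃ n, p = n + 1 := ⟨p - 1, (Nat.sub_add_cancel hp.pos).symm⟩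
  rw [Nat.cast_succ, ← h.prod_one_sub_pow_eq_order, Nat.add_sub_cancel, ← Finset.card_range n,
    ← Finset.prod_const, Finset.card_range]
  refine Associated.prod _ _ _ fun k hk => ?_
  have := h.associated_sub_one_pow_sub_one_of_coprime (j := k + 1) (Nat.coprime_of_lt_prime
    (Nat.succ_ne_zero k) (Nat.succ_lt_succ (Finset.mem_range.1 hk)) hp).symm
  rw [← neg_sub ζ, ← neg_sub (ζ ^ _)]
  exact this.neg_left.neg_right

theorem core (o : Ov p P) (z : Qb) : (∀ a : ZMod p, a ≠ 0 → ∃ i, Inert P i ∧ oz p i = a) ∧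
    ((∀ i, Inert P i → oz p i = 1 → i z = z) → Zp P z → Ip P (z / (1 - zt p))) := by
  obtain ⟨O, V⟩ := ex_va o
  obtain ⟨hp, hP, hq⟩ := id o
  have : NeZero p := ⟨hp.ne_zero⟩
  let U : Subgroup GQ := (MulAction.stabilizer GQ z ⊓ Gz p).normalCore
  have uo : IsOpen (U : Set GQ) := by
    have k : IsOpen ((MulAction.stabilizer GQ z ⊓ Gz p : Subgroup GQ) : Set GQ) :=
      (stab_open z).inter Gz_open
    obtain ⟨W, a, b⟩ := ex_lv' k
    exact Subgroup.isOpen_mono (H₁ := W) (by have := a.nrm; exact Subgroup.normal_le_normalCore.2 b)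
      a.opn
  obtain ⟨L, _, _, _, _, jL, ρ, D, hM, hker⟩ := exists_fld jQ U uo (fun g _ => mem_GK g)
    fun g _ u hu => (Subgroup.normalCore_normal _).conj_mem u hu g
  obtain ⟨z', rfl⟩ : ∃ b, jL b = z := fixed jL fun g =>
    (Subgroup.normalCore_le _ (hM ▸ g.2 : g.1 ∈ U)).1
  obtain ⟨ζ, hζ⟩ : ∃ b, jL b = zt p := fixed jL fun g =>
    mem_Gz'.1 (Subgroup.normalCore_le _ (hM ▸ g.2 : g.1 ∈ U)).2
  have pz : IsPrimitiveRoot ζ p :=
    IsPrimitiveRoot.of_map_of_injective (f := jL) (hζ ▸ zt_prim p) jL.injective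
  have mp : (p : 𝓞 L) ∈ below jL P := by
    change RingOfIntegers.mapRingHom jL p ∈ P
    rwa [map_natCast]
  let w : HeightOneSpectrum (𝓞 L) := ⟨below jL P, Ideal.IsPrime.comap _, fun e =>
    hp.ne_zero (Nat.cast_eq_zero.1 (Ideal.mem_bot.1 (e ▸ mp)))⟩
  have ip : ∀ x, w.valuation L x ≤ 1 → Ip P (jL x) := fun x k => by
    obtain ⟨t, s, e⟩ := w.exists_primeCompl_mul_eq_of_integer x k
    refine ⟨RingOfIntegers.mapRingHom jL s.1, RingOfIntegers.mapRingHom jL t, s.2, ?_⟩
    have := congrArg jL e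
    rw [map_mul, mul_comm] at this
    exact this
  have zp : ∀ x, Zp P (jL x) → w.valuation L x < 1 := fun x k => not_le.1 fun c => by
    have x0 : x ≠ 0 := fun e => by simp [e] at c
    have := (V.ip _).1 (ip x⁻¹ (by rw [map_inv₀]; exact inv_le_one_of_one_le₀ c))
    rw [map_inv₀, map_inv₀, inv_le_one₀ (zero_lt_iff.2 ((map_ne_zero _).2
      ((map_ne_zero _).2 x0)))] at this
    exact this.not_gt ((V.zp _).1 k)
  let I := w.asIdeal.inertia (L ≃ₐ[ℚ] L)
  let ω : I →* (ZMod p)ˣ := (pz.autToPow ℚ).comp I.subtype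
  let J := ω.ker.map I.subtype
  have hω : ∀ g : GK jQ, (pz.autToPow ℚ (ρ g) : ZMod p) = oz p g := fun g => pw_inj (by
    rw [← oz_spec, ← hζ, D.act, ← map_pow, pz.autToPow_spec ℚ])
  have cJ : Nat.card J * Nat.card ω.range = Nat.card I := by
    rw [Subgroup.card_map_of_injective I.subtype_injective, ← Subgroup.index_ker,
      Subgroup.card_mul_index]
  have cR : Nat.card ω.range ≤ p - 1 := by
    rw [← ZMod.card_units p, ← Nat.card_eq_fintype_card]
    exact Subgroup.card_le_card_group _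
  have d0 := fun x => dis0 w J (Subgroup.map_subtype_le _) (z := x)
  obtain ⟨v, hv, e⟩ := vk (K := ℚ) w
  have e1 := e p
  rw [map_natCast, ← map_natCast (algebraMap (𝓞 ℚ) ℚ), v.valuation_of_algebraMap,
    v.intValuation_singleton (Nat.cast_ne_zero.2 hp.ne_zero)
    (hv.trans ((D.below_comap P).trans (belowQ hP hp hq)))] at e1
  have e2 : w.valuation L (1 - ζ) ^ (p - 1) = exp (-1 : ℤ) ^ Nat.card I := by
    obtain ⟨u, hu⟩ := ass pz.toInteger_isPrimitiveRoot
    have := congrArg (fun x : 𝓞 L => w.valuation L (algebraMap _ L x)) hu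
    simp only [map_mul, map_pow, map_natCast, map_sub, map_one] at this
    rw [← e1, ← this, w.valuation_eq_one_iff_notMem.2 fun m => w.isPrime.ne_top
      (Ideal.eq_top_of_isUnit_mem _ m u.isUnit), mul_one]
    rfl
  have p1 : p - 1 ≠ 0 := Nat.sub_ne_zero_of_lt hp.one_lt
  have x1 : (exp (-1 : ℤ) : ℤᵐ⁰) < 1 := by rw [← exp_zero, exp_lt_exp]; norm_num
  have x0 : (0 : ℤᵐ⁰) < exp (-1 : ℤ) := zero_lt_iff.2 exp_ne_zero
  refine ⟨fun a a0 => ?_, fun hz k => ?_⟩
  · have l1 : w.valuation L (1 - ζ) < 1 := lt_of_pow_lt_pow_left₀ (p - 1) zero_le' (by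
      rw [e2, one_pow, ← e1, ← map_natCast (algebraMap (𝓞 L) L)]
      exact (w.valuation_lt_one_iff_mem _).2 mp)
    have l2 := pow_le_pow_left₀ zero_le' (d0 (1 - ζ) (by
      rintro _ ⟨s, hs, rfl⟩
      have := pz.autToPow_spec ℚ s.1
      rw [show pz.autToPow ℚ s.1 = 1 from hs, Units.val_one, ZMod.val_one, pow_one] at this
      rw [map_sub, map_one]
      exact congrArg _ this.symm) l1) (p - 1)
    rw [e2, ← pow_mul, pow_le_pow_iff_right_of_lt_one₀ x0 x1, ← cJ] at l2
    have t : ω.range = ⊤ := Subgroup.eq_top_of_le_card _ (by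
      rw [Nat.card_eq_fintype_card, ZMod.card_units p]
      exact Nat.le_of_mul_le_mul_left l2 Nat.card_pos)
    obtain ⟨s, hs⟩ := MonoidHom.range_eq_top.1 t (Units.mk0 a a0)
    obtain ⟨g, a1, a2⟩ := D.inertia_lift hP s.2
    exact ⟨g, a2, by rw [← hω, a1]; exact congrArg Units.val hs⟩
  · have l2 := pow_le_pow_left₀ zero_le' (d0 z' (by
      rintro _ ⟨s, hs, rfl⟩
      obtain ⟨g, a1, a2⟩ := D.inertia_lift hP s.2
      refine jL.injective ?_
      rw [show I.subtype s = ρ g from a1.symm, ← D.act]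
      exact hz g a2 (by rw [← hω, a1]; exact congrArg Units.val hs)) (zp _ k)) (p - 1)
    have l3 : w.valuation L z' ≤ w.valuation L (1 - ζ) := le_of_pow_le_pow_left₀ p1 zero_le' (by
      refine l2.trans ?_
      rw [e2, ← pow_mul, pow_le_pow_iff_right_of_lt_one₀ x0 x1, ← cJ]
      exact Nat.mul_le_mul_left _ cR)
    have := ip (z' / (1 - ζ)) (by rw [map_div₀]; exact div_le_one_of_le₀ l3 zero_le')
    rwa [map_div₀, map_sub, map_one, hζ] at this

/-- the inertia group acts on the roots of unity through the full group -/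
theorem sur (o : Ov p P) {a : ZMod p} (h : a ≠ 0) : ∃ i, Inert P i ∧ oz p i = a :=
  (core o 0).1 a h

/-- `1 - ζ` is a uniformiser -/
theorem dis (o : Ov p P) {z : Qb} (hz : ∀ i, Inert P i → oz p i = 1 → i z = z) (h : Zp P z) :
    Ip P (z / (1 - zt p)) := (core o z).2 hz h

theorem pi_ne : 1 - zt p ≠ 0 :=
  sub_ne_zero.2 ((zt_prim p).ne_one (Fact.out : p.Prime).one_lt).symm

/-- the leading coefficient -/
abbrev lm (p : ℕ) [Fact p.Prime] (i : ℕ) (X : Qb) : Qb := (X - 1) / (1 - zt p) ^ i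

namespace Va

variable (V : Va P O) (o : Ov p P) {X Y y : Qb} {i j : ℕ} {g : GQ}
include V

theorem nat (n : ℕ) : O.valuation n ≤ 1 := by simpa using V.int n

theorem ztv (n : ℕ) : O.valuation (zt p ^ n) ≤ 1 := by
  rw [map_pow]
  exact pow_le_one₀ zero_le' (V.int ⟨_, (zt_prim p).isIntegral (Fact.out : p.Prime).pos⟩)

omit V in
theorem pi0 : 0 < O.valuation (1 - zt p) := zero_lt_iff.2 ((map_ne_zero _).2 pi_ne)

omit V in
theorem lm_le : O.valuation (lm p i X) ≤ 1 ↔ O.valuation (X - 1) ≤ O.valuation (1 - zt p) ^ i := by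
  rw [map_div₀, map_pow, div_le_one₀ (pow_pos pi0 i)]

theorem pv : O.valuation p = O.valuation (1 - zt p) ^ (p - 1) := by
  obtain ⟨u, hu⟩ := ass ((zt_prim p).toInteger_isPrimitiveRoot)
  have a := congrArg (fun x : 𝓞 Qb => O.valuation (algebraMap _ Qb x)) hu
  have b := congrArg (fun x : 𝓞 Qb => O.valuation (algebraMap _ Qb x)) u.mul_inv
  simp only [map_mul, map_pow, map_natCast, map_sub, map_one] at a b
  rw [← a, eq_one_of_one_le_mul_left (V.int u) (V.int _) b.ge, mul_one]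
  rfl

include o

theorem p1 : O.valuation p < 1 :=
  (V.zp _).1 ⟨1, p, o.2.1.one_notMem, o.2.2, by simp⟩

theorem pi1 : O.valuation (1 - zt p) < 1 :=
  lt_of_pow_lt_pow_left₀ (p - 1) zero_le' (by rw [← V.pv, one_pow]; exact V.p1 o)

theorem uni {n : ℤ} (h : ¬ (p : ℤ) ∣ n) : O.valuation n = 1 := by
  obtain ⟨a, b, e⟩ := (Nat.prime_iff_prime_int.1 o.1).coprime_iff_not_dvd.2 h
  have k : ∀ n : ℤ, O.valuation n ≤ 1 := fun n => by simpa using V.int n
  refine le_antisymm (k n) (not_lt.1 fun c => ?_)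
  have := O.valuation.map_add_lt (x := a * p) (y := b * n) (g := 1)
    (by rw [map_mul, mul_comm]; exact mul_lt_one_of_lt_of_le (V.p1 o) (k a))
    (by rw [map_mul, mul_comm]; exact mul_lt_one_of_lt_of_le c (k b))
  rw [show (a : Qb) * p + b * n = 1 by exact_mod_cast congrArg (Int.cast (R := Qb)) e,
    map_one] at this
  exact this.false

theorem lm_mul (i0 : i ≠ 0) (a : O.valuation (lm p i X) ≤ 1) (b : O.valuation (lm p i Y) ≤ 1) :
    O.valuation (lm p i (X * Y) - (lm p i X + lm p i Y)) < 1 := by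
  have := pow_ne_zero i (pi_ne (p := p))
  rw [show lm p i (X * Y) - (lm p i X + lm p i Y) = (1 - zt p) ^ i * (lm p i X * lm p i Y) by
    unfold lm; field_simp; ring, map_mul, map_mul, map_pow]
  exact mul_lt_one_of_lt_of_le (pow_lt_one₀ zero_le' (V.pi1 o) i0) (mul_le_one' a b)

omit V o [Fact p.Prime] in
theorem le_of {a b : Qb} (h : O.valuation (a - b) < 1) (k : O.valuation b ≤ 1) :
    O.valuation a ≤ 1 := by simpa using O.valuation.map_add_le h.le k

theorem lm_pow (i0 : i ≠ 0) (a : O.valuation (lm p i X) ≤ 1) (n : ℕ) :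
    O.valuation (lm p i (X ^ n) - n * lm p i X) < 1 := by
  induction n with
  | zero => simp [lm]
  | succ n ih =>
    have := O.valuation.map_add_lt (V.lm_mul o i0 (le_of ih (by
      rw [map_mul]; exact mul_le_one' (V.nat n) a)) a) ih
    rwa [← pow_succ, show ∀ a b c : Qb, a - (b + c) + (b - n * c) = a - (n + 1 : ℕ) * c from
      fun a b c => by push_cast; ring] at this

theorem lm_pth (h : O.valuation (lm p 1 y) ≤ 1) : O.valuation (lm p p (y ^ p)) ≤ 1 := by
  rw [lm_le, pow_one] at h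
  obtain ⟨r, hr⟩ := exists_add_pow_prime_eq o.1 (1 : O)
    ⟨y - 1, (O.valuation_le_one_iff _).1 (h.trans (V.pi1 o).le)⟩
  have e : (1 + (y - 1)) ^ p = 1 ^ p + (y - 1) ^ p + p * 1 * (y - 1) * (r : Qb) :=
    congrArg Subtype.val hr
  rw [lm_le, show y ^ p - 1 = (y - 1) ^ p + p * (y - 1) * r by
    rw [add_sub_cancel, one_pow] at e; linear_combination e]
  refine O.valuation.map_add_le (by rw [map_pow]; exact pow_le_pow_left₀ zero_le' h p) ?_
  rw [map_mul, map_mul, V.pv]
  refine (mul_le_of_le_one_right' (O.valuation_le_one r)).trans ?_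
  rw [← pow_sub_one_mul o.1.ne_zero]
  exact mul_le_mul_right h _

theorem lm_lt (h : i < j) (a : O.valuation (lm p j X) ≤ 1) : O.valuation (lm p i X) < 1 := by
  rw [map_div₀, map_pow, div_lt_one₀ (pow_pos pi0 i)]
  exact (lm_le.1 a).trans_lt (pow_lt_pow_right_of_lt_one₀ pi0 (V.pi1 o) h)

theorem geo (n : ℕ) : O.valuation ((1 - zt p ^ n) / (1 - zt p) - n) < 1 := by
  induction n with
  | zero => simp
  | succ n ih =>
    have := pi_ne (p := p)
    have a : O.valuation ((1 - zt p ^ n) / (1 - zt p) * (1 - zt p)) < 1 := by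
      rw [map_mul, mul_comm]; exact mul_lt_one_of_lt_of_le (V.pi1 o) (le_of ih (V.nat n))
    have := O.valuation.map_sub_lt ih a
    rwa [show (1 - zt p ^ n) / (1 - zt p) - n - (1 - zt p ^ n) / (1 - zt p) * (1 - zt p) =
      (1 - zt p ^ (n + 1)) / (1 - zt p) - (n + 1 : ℕ) by push_cast; field_simp; ring] at this

omit V o [Fact p.Prime] in
theorem pw_lt {a b : Qb} (h : O.valuation (a - b) < 1) (k : O.valuation b ≤ 1) (n : ℕ) :
    O.valuation (a ^ n - b ^ n) < 1 := by
  obtain ⟨c, hc⟩ := sub_dvd_pow_sub_pow (⟨a, (O.valuation_le_one_iff _).1 (le_of h k)⟩ : O)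
    ⟨b, (O.valuation_le_one_iff _).1 k⟩ n
  rw [show a ^ n - b ^ n = (a - b) * (c : Qb) from congrArg Subtype.val hc, map_mul]
  exact mul_lt_one_of_lt_of_le h (O.valuation_le_one c)

/-- the action on the leading coefficient -/
theorem lm_act (g : GQ) (a : O.valuation (g (lm p i X)) ≤ 1) :
    O.valuation (lm p i (g X) - ((oz p g).val : Qb) ^ i * g (lm p i X)) < 1 := by
  have k := pw_lt (V.geo o (oz p g).val) (V.nat _) i
  have n : 1 - zt p ^ (oz p g).val ≠ 0 := by
    rw [← oz_spec, ← map_one g, ← map_sub]; exact (map_ne_zero g).2 pi_ne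
  have := pi_ne (p := p)
  rw [show lm p i (g X) - ((oz p g).val : Qb) ^ i * g (lm p i X) =
    (((1 - zt p ^ (oz p g).val) / (1 - zt p)) ^ i - ((oz p g).val : Qb) ^ i) * g (lm p i X) by
      rw [sub_mul, map_div₀, map_pow, map_sub, map_sub, map_one, oz_spec, div_pow]
      unfold lm; field_simp, map_mul]
  exact mul_lt_one_of_lt_of_le k a

theorem nxt (fx : ∀ t, Inert P t → oz p t = 1 → t X = X) (h : O.valuation (lm p i X) < 1) :
    O.valuation (lm p (i + 1) X) ≤ 1 := by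
  have := (V.ip _).1 (dis o (z := lm p i X) (fun t a b => by
    rw [map_div₀, map_pow, map_sub, map_sub, map_one, fx t a b, mem_Gz'.1 (mem_Gz.2 b)])
    ((V.zp _).2 h))
  rwa [div_div, ← pow_succ] at this

/-- **one step** -/
theorem step (i0 : i ≠ 0) (ip : i < p) (a : O.valuation (lm p i X) ≤ 1) (hg : Inert P g) {c : ZMod p}
    (fy : ∀ t, Inert P t → oz p t = 1 → t y = y) (e : g X = X ^ c.val * y ^ p)
    (ne : oz p g ^ i ≠ c) : O.valuation (lm p i X) < 1 := by
  have x1 := V.lm_lt o (Nat.pos_of_ne_zero i0) a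
  simp only [lm, pow_zero, div_one] at x1
  have x2 : O.valuation X = 1 := by simpa using O.valuation.map_one_add_of_lt x1
  have a1 := V.ine g hg _ a
  have a2 := V.lm_act o g (le_of a1 a)
  have y1 : O.valuation (y ^ p - 1) < 1 := by
    have b := O.valuation.map_sub_lt (O.valuation.map_add_lt (V.ine g hg X x2.le) x1)
      (pw_lt x1 (map_one _).le c.val)
    rwa [show g X - X + (X - 1) - (X ^ c.val - 1 ^ c.val) = X ^ c.val * (y ^ p - 1) by
      rw [e, one_pow]; ring, map_mul, map_pow, x2, one_pow, one_mul] at b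
  have y2 : O.valuation y ≤ 1 := le_of_pow_le_pow_left₀ o.1.ne_zero zero_le' (by
    rw [← map_pow, one_pow]; exact le_of y1 (map_one _).le)
  have y3 : O.valuation (lm p 0 y) < 1 := by
    simp only [lm, pow_zero, div_one]
    obtain ⟨r, hr⟩ := exists_add_pow_prime_eq o.1 (1 : O)
      (⟨y, (O.valuation_le_one_iff _).1 y2⟩ - 1)
    have e : (1 + (y - 1)) ^ p = 1 ^ p + (y - 1) ^ p + p * 1 * (y - 1) * (r : Qb) :=
      congrArg Subtype.val hr
    refine lt_of_pow_lt_pow_left₀ p zero_le' ?_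
    rw [← map_pow, one_pow, show (y - 1) ^ p = y ^ p - 1 - p * ((y - 1) * r) by
      rw [add_sub_cancel, one_pow] at e; linear_combination -e]
    refine O.valuation.map_sub_lt y1 ?_
    rw [map_mul, map_mul]
    exact mul_lt_one_of_lt_of_le (V.p1 o) (mul_le_one'
      (O.valuation.map_sub_le y2 (map_one _).le) (O.valuation_le_one r))
  have y4 := V.lm_lt o ip (V.lm_pth o (V.nxt o fy y3))
  have b1 := V.lm_pow o i0 a c.val
  have b2 := V.lm_mul o i0 (le_of b1 (by rw [map_mul]; exact mul_le_one' (V.nat _) a)) y4.le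
  have b3 : O.valuation (((oz p g).val : Qb) ^ i * (g (lm p i X) - lm p i X)) < 1 := by
    rw [map_mul, mul_comm, map_pow]
    exact mul_lt_one_of_lt_of_le a1 (pow_le_one₀ zero_le' (V.nat _))
  have := O.valuation.map_sub_lt (O.valuation.map_add_lt (O.valuation.map_add_lt b2 b1) y4)
    (O.valuation.map_add_lt a2 b3)
  rw [← e, show ∀ A B C D E F G : Qb, A - (B + C) + (B - D * E) + C - (A - F * G + F * (G - E)) =
    (F - D) * E from fun A B C D E F G => by ring, map_mul] at this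
  have u := V.uni o (n := (oz p g).val ^ i - c.val) fun d => ne (by
    have := (ZMod.intCast_zmod_eq_zero_iff_dvd _ p).2 d
    simpa [sub_eq_zero] using this)
  push_cast at u
  rwa [u, one_mul] at this

end Va

/-- the hypothesis: the inertia group acts by `ω ^ j` modulo powers -/
def Ev (p : ℕ) [Fact p.Prime] (P : Ideal (𝓞 Qb)) (j : ℕ) (X : Qb) : Prop :=
  (∀ t, Inert P t → oz p t = 1 → t X = X) ∧ ∀ g, Inert P g → ∃ y,
    (∀ t, Inert P t → oz p t = 1 → t y = y) ∧ g X = X ^ (oz p g ^ j).val * y ^ p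

theorem ex_sep (o : Ov p P) {i j : ℕ} (i0 : 0 < i) (j0 : 0 < j) (ip : i < p) (jp : j < p)
    (h : i ≠ j) : ∃ g, Inert P g ∧ oz p g ^ i ≠ oz p g ^ j := by
  obtain ⟨a, ha⟩ := IsCyclic.exists_ofOrder_eq_natCard (α := (ZMod p)ˣ)
  obtain ⟨g, b, c⟩ := sur o a.ne_zero
  rw [Nat.card_eq_fintype_card, ZMod.card_units p] at ha
  refine ⟨g, b, fun e => h ?_⟩
  rw [c, ← Units.val_pow_eq_pow_val, ← Units.val_pow_eq_pow_val, Units.val_inj,
    pow_eq_pow_iff_modEq, ha] at e
  obtain ⟨i, rfl⟩ := Nat.exists_eq_add_of_lt i0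
  obtain ⟨j, rfl⟩ := Nat.exists_eq_add_of_lt j0
  have := (Nat.ModEq.add_right_cancel' 1 e).eq_of_lt_of_lt (by omega) (by omega)
  omega

/-- from `π ^ i` to `π ^ (i + n)` when `j` is not between -/
theorem run (o : Ov p P) {X : Qb} {j : ℕ} (j0 : 0 < j) (jp : j < p) (ev : Ev p P j X) {i : ℕ}
    (h : Zp P (lm p i X)) (n : ℕ) (hn : i + n < p) (nj : j ≤ i ∨ i + n < j) :
    Zp P (lm p (i + n) X) := by
  obtain ⟨O, V⟩ := ex_va o
  induction n with
  | zero => exact h
  | succ n ih =>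
    obtain ⟨g, a, b⟩ := ex_sep o (i := i + (n + 1)) (by omega) j0 hn jp (by omega)
    obtain ⟨y, c, d⟩ := ev.2 g a
    exact (V.zp _).2 (V.step o (by omega) hn
      (V.nxt o ev.1 ((V.zp _).1 (ih (by omega) (by omega)))) a c d b)

/-- **a principal unit on which the inertia group acts by `ω ^ j` is one modulo `π ^ j`** -/
theorem eig (o : Ov p P) {X : Qb} {j : ℕ} (j0 : 0 < j) (jp : j < p) (ev : Ev p P j X)
    (h : Zp P (X - 1)) : Ip P ((X - 1) / (1 - zt p) ^ j) := by
  obtain ⟨O, V⟩ := ex_va o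
  obtain ⟨j, rfl⟩ := Nat.exists_eq_add_of_lt j0
  exact (V.ip _).2 (V.nxt o ev.1 ((V.zp _).1 (run o j0 jp ev (i := 0) (by simpa [lm] using h) j
    (by omega) (by omega))))

/-- **and one modulo `π ^ p` when the leading coefficient vanishes** -/
theorem eig0 (o : Ov p P) {X : Qb} {j : ℕ} (j0 : 0 < j) (jp : j < p) (ev : Ev p P j X)
    (h : Zp P ((X - 1) / (1 - zt p) ^ j)) : Ip P ((X - 1) / (1 - zt p) ^ p) := by
  obtain ⟨O, V⟩ := ex_va o
  obtain ⟨n, hn⟩ := Nat.exists_eq_add_of_lt jp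
  have := V.nxt o ev.1 ((V.zp _).1 (run o j0 jp ev h n (by omega) (by omega)))
  rw [← hn] at this
  exact (V.ip _).2 this

end Vale.Agent.P014Z.In.Ei
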