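import Vale.Agent.P014Z.In.St
import Vale.Agent.P014Y.Mu.Url
import Vale.Agent.P014U.G2.Dim

/-! # P014Z, block In: the flat condition (row FLT; helper46) -/

set_option autoImplicit false
set_option linter.all false

noncomputable section

namespace Vale.Agent.P014Z.In

open NumberField IsDedekindDomain Matrix
open Vale.Agent.P022 Vale.Agent.P022.C Vale.Agent.P022.H443 Vale.Agent.P022.H916
open Vale.Agent.P027M.S (Inert)
open Vale.Agent.P022D.W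
open Vale.Agent.P022E.GW (Ov Fb)
open Vale.Agent.P022K.G2
open Vale.Agent.P014U
open P004K (Ip)

namespace Ft

/-- a unit at `P` has order zero -/
theorem ord_unit {M : Type} [Field M] [NumberField M] (j : M →+* Qb) {l : ℕ} {P : Ideal (𝓞 Qb)}
    (o : Ov l P) {c : M} (c0 : c ≠ 0) (h : Ip P (j c)) (h' : Ip P (j c)⁻¹) :
    ordv (blw j o) c = 0 := by
  have k : ∀ x, Ip P (j x) → (blw j o).valuation M x ≤ 1 := fun x m => not_lt.1 fun n => by
    have := (P022K.GW.Lc.v_res o (w := blw j o) rfl 1 x).2 (by rwa [map_one])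
    rw [map_one, map_one] at this
    exact this.not_ge ((P022K.GW.Lc.le_one o _).2 m)
  have h1 := k c⁻¹ (by rwa [map_inv₀])
  rw [map_inv₀, inv_le_one₀ (zero_lt_iff.2 ((map_ne_zero _).2 c0))] at h1
  rw [ordv, le_antisymm (k c h) h1]
  simp

/-- **the symbol of an unramified character and a flat class** -/
theorem sym {p : ℕ} [Fact p.Prime] (h2 : p ≠ 2) {Γ U : Subgroup GQ} (oU : IsOpen (U : Set GQ))
    (le : U ≤ Γ) (nU : ∀ g ∈ Γ, ∀ u ∈ U, g * u * g⁻¹ ∈ U) {l : ℕ} {P : Ideal (𝓞 Qb)} (o : Ov l P)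
    (lD : dec P ≤ Γ) (hI : ∀ g, Inert P g → g ∈ Gz p → g ∈ U) {β y : Qb} (b0 : β ≠ 0)
    (fx : ∀ u ∈ U, u (β ^ p) = β ^ p) (y0 : y ≠ 0) (fy : ∀ u ∈ U, u y = y)
    (i1 : Ip P (β ^ p * y ^ p)) (i2 : Ip P (β ^ p * y ^ p)⁻¹) {ψ z : GQ → ZMod p}
    (cψ : Ch (dec P ⊓ Gz p) ψ) (cz : Ch (dec P ⊓ Gz p) z) (uψ : ∀ g, Inert P g → ψ g = 0)
    (ku : ∀ u ∈ U, u β = zt p ^ (z u).val * β) : cup ψ z ∈ B2 ∅ (dec P ⊓ Gz p) (tp p) := by
  obtain ⟨K, _, _, j, hK⟩ := Dm.ex_fld (H := Γ ⊓ Gz p)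
    ((Subgroup.isOpen_mono le oU).inter Gz_open)
  have e : dec P ⊓ Gz p = GK j ⊓ dec P := by
    rw [hK]
    exact Subgroup.ext fun g => ⟨fun m => ⟨⟨lD m.1, m.2⟩, m.1⟩, fun m => ⟨m.2, m.1.2⟩⟩
  rw [e] at cψ cz ⊢
  have hz : GK j ≤ Gz p := hK ▸ inf_le_right
  by_cases s : ∃ σ ∈ GK j ⊓ dec P, ψ σ ≠ 0
  swap
  · push Not at s
    exact b2_of_zero fun g m h _ => by rw [cup, s g m, zero_mul]
  obtain ⟨b, n0, hb⟩ := G2.Dm.glob j hz o cz
  refine G2.Dm.bc ((G2.uns (G2.nil h2) K j l P (blw j o) ψ b hz o rfl cψ (fun g _ => uψ g) s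
    n0).2 ?_) fun g _ h m => by rw [cup, cup, hb h m]
  have l1 : U ⊓ Gz p ≤ GK j := hK ▸ inf_le_inf_right _ le
  obtain ⟨M, _, _, _, _, jM, ρ, D, hM, hker⟩ := exists_fld j (U ⊓ Gz p) (oU.inter Gz_open) l1
    fun g hg u hu => ⟨nU g (hK ▸ hg : g ∈ Γ ⊓ Gz p).1 u hu.1, Gz_normal.conj_mem u hu.2 g⟩
  have key := H269.UNRV K M (blw j o) (blw jM o) (D.below_comap P) (fun g hg =>
    D.inertia_eq_bot o.2.1 (fun g hg => (hker g).2 ⟨hI g hg (hz g.2), hz g.2⟩) hg) b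
  obtain ⟨x, hx⟩ := fixed jM (x := β ^ p) fun g => fx g (hM ▸ g.2 : g.1 ∈ U ⊓ Gz p).1
  obtain ⟨t, ht⟩ := fixed jM (x := y) fun g => fy g (hM ▸ g.2 : g.1 ∈ U ⊓ Gz p).1
  have p0 := pow_ne_zero p b0
  have x0 : x ≠ 0 := (map_ne_zero jM).1 (hx ▸ p0)
  have t0 : t ≠ 0 := (map_ne_zero jM).1 (ht ▸ y0)
  have n1 : algebraMap K M b ≠ 0 := (map_ne_zero _).2 n0
  have h1 := dvd_ordv (p := p) jM o (v := blw jM o) rfl (div_ne_zero x0 n1) fun g hg i => by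
    have m : g ∈ U ⊓ Gz p := hM ▸ hg
    exact ⟨m.2, by
      rw [map_div₀, D.comp, hx, ka_div p0 ((map_ne_zero j).2 n0) m.2 (fx g m.1) (l1 m b),
        ka_eq p0 rfl m.2 (ku g m.1), ← hb g ⟨l1 m, inP_le_dec i⟩, sub_self]⟩
  have h3 := ord_unit jM o (mul_ne_zero x0 (pow_ne_zero p t0))
    (by rwa [map_mul, map_pow, hx, ht]) (by rwa [map_mul, map_pow, hx, ht])
  rw [Dm.ord_mul _ x0 (pow_ne_zero p t0), G2.Dm.ord_pow] at h3
  rw [Dm.ord_div _ x0 n1, key, eq_neg_of_add_eq_zero_left h3] at h1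
  exact (dvd_sub_right (dvd_mul_right _ _).neg_right).1 h1

variable [Pp]

open P014Y.Mu (F X R0 Cl Bl Ur Ot)
open P014Y.Mu.Ul
open P014Y.Bo (dg dg_mv)
open L2 (cu dt BB)

theorem om_dg {f θ : GQ →* F} (r : R0 (dg f θ)) (g : GQ) : f g * θ g = om pp F g := by
  rw [← r.det, dt]
  simp [dg]

/-- the first coordinate of an unramified cocycle is a coboundary if the character is not trivial -/
theorem cob {f θ : GQ →* F} (r : R0 (dg f θ)) {l : ℕ} {Q : Ideal (𝓞 Qb)} (o : Ov l Q) {x : X}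
    (a1 : x ∈ Cl (dg f θ) (dec Q)) (a3 : ∀ s ∈ inP Q, x s = 0) (s : ¬ ∀ g ∈ dec Q, f g = 1) :
    ∃ v : F, ∀ g ∈ dec Q, x g 0 = f g * v - v := by
  by_cases n : ∀ i ∈ inP Q, f i = 1
  swap
  · push Not at n
    obtain ⟨i, m, n⟩ := n
    refine ⟨0, fun g hg => ?_⟩
    have := congrFun (fix_in a1 a3 hg m) 0
    rw [dg_mv] at this
    simpa using (mul_left_eq_self₀.1 this).resolve_left n
  obtain ⟨φ, fb⟩ := exists_phi o.1 o.2.1 o.2.2
  have k : ∀ g (v : F), dg f θ g *ᵥ ![v, 0] = ![f g * v, 0] := fun g v => by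
    rw [dg_mv]; simp
  have n1 : f φ - 1 ≠ 0 := sub_ne_zero.2 fun e => s fun g m => by
    have := congrFun (fix_dec r o fb (v := ![1, 0]) (fun i m => by rw [k, n i m, one_mul])
      (by rw [k, e, one_mul]) g m) 0
    rw [k] at this
    simpa using this
  obtain ⟨V, lv, w⟩ := a1.2
  have c : (fun g => ![x g 0, 0] : X) ∈ Cl (dg f θ) (dec Q) :=
    ⟨fun g m h n => by simp only [k, a1.1 g m h n, dg_mv]; simp, V, lv, fun g m n => by
      simp only [w g m n]; simp⟩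
  refine ⟨x φ 0 / (f φ - 1), fun g m => ?_⟩
  have := congrFun (van o fb (sub_mem c (bl_le r _ (d0_bl _ ![x φ 0 / (f φ - 1), 0])))
    (fun i m => by rw [Pi.sub_apply, d0_ap, k, n i m, a3 i m]; simp)
    (by rw [Pi.sub_apply, d0_ap, k]; simp; field_simp; ring) g m) 0
  rw [Pi.sub_apply, d0_ap, k] at this
  simpa [sub_eq_zero] using this

end Ft

variable [Pp]

open Ft
open P014Y.Mu (F X R0 Cl Bl Ur Ot)
open P014Y.Mu.Ul
open P014Y.Bo (dg dg_mv)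
open L2 (cu dt BB)

/-- **row FLT** -/
theorem flt : FLT := by
  intro Γ U S N c j χ σ f θ P D β z k fx Q o ⟨y, fy, i1, i2⟩
  have r := D.rs.toR0
  have lD := (D.ly.fro pp D.rs.pm Q o).1
  have lU : U ≤ Γ := fun g m => ((D.mem g).1 m).1
  obtain ⟨V, lv, lV⟩ := ex_lv' (H := U ⊓ MulAction.stabilizer GQ β) (D.opn.inter (stab_open β))
  have z0 : ∀ w ∈ V, z w = 0 := fun w m => pw_inj (mul_right_cancel₀ k.ne (by
    rw [← k.res w (lV m).1, show w β = β from (lV m).2]; simp))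
  have cl : pl z ∈ Cl (dg f θ) (dec Q) :=
    ⟨fun g m h n => by rw [dg_mv, pl, pl, pl, k.coc g (lD m) h (lD n)]; simp, V, lv,
      fun w _ n => by rw [pl, z0 w n]; simp⟩
  refine ⟨cl, fun w hw => ?_⟩
  obtain ⟨x, a1, a2, a3⟩ := ur_ex r hw
  refine cu_of r a1 cl a2 (by rw [sub_self]; exact zero_mem _) ?_
  have e : ∀ (x : X) g h, cu (dg f θ) x (pl z) g h = x g 0 * (θ g * z h) := fun x g h => by
    rw [cu, dg_mv]; simp [P004S.wp, pl]
  by_cases s : ∀ g ∈ dec Q, f g = 1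
  swap
  · obtain ⟨v, hv⟩ := cob r o a1 a3 s
    exact B2.congr (cu_left r (d0_bl _ ![v, 0]) cl) (fun g m h _ => by
      rw [e, e, hv g m, d0_ap, dg_mv]; simp) fun _ _ => rfl
  have t1 : ∀ g ∈ dec Q ⊓ Gz pp, θ g = 1 := fun g m => by
    rw [← (om_eq_one F).2 m.2, ← om_dg r, s g m.1, one_mul]
  have rp : Rp ∅ (dec Q) (ch (dt (dg f θ))) := r.det ▸ rp_om F _
  obtain ⟨V', lv', w'⟩ := a1.2
  refine tr2 GQ F F ∅ _ (Gz pp) _ _ rp (pr0 GQ F F ∅ _ _ _ rp fun h => Gz_index (p := pp)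
    (((ZMod.natCast_eq_zero_iff _ _).1 h).trans (Subgroup.relIndex_dvd_index_of_normal _ _)))
    ⟨_, lv_Gz, fun _ _ m => m⟩ (cu_z2 r a1 cl) (B2.congr (sym pp_ne_two D.opn lU
      (fun g _ u m => D.nm.conj_mem u m g) o lD (fun g i _ => (D.mem g).2
        ⟨lD (inP_le_dec i), s g (inP_le_dec i), D.ly.unr pp Q o
          (fun d => (D.ly.out pp pp_prime d).1 D.rs.pm) g (lD (inP_le_dec i)) i⟩)
      k.ne fx.2 fy.1 fy.2 i1 i2 (ψ := fun g => x g 0)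
      ⟨fun g m h n => by simp only [a1.1 g m.1 h n.1, dg_mv]; simp [s g m.1], V', lv',
        fun g m n => congrFun (w' g m.1 n) 0⟩
      ⟨fun g m h n => by rw [k.coc g (lD m.1) h (lD n.1), t1 g m, one_mul], V, lv,
        fun g _ n => z0 g n⟩ (fun g i => by rw [a3 g i]; rfl) k.res)
      (fun g m h _ => by rw [e, t1 g m, one_mul]; rfl) fun g m => by
        rw [r.det]; exact ch_om F m.2)

end Vale.Agent.P014Z.In
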