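import Vale.Agent.P014Y.Bo.Lv1
import Vale.Agent.P014Y.Mu.Url

/-! # P014Z, block In: from a rank one cocycle to the conditions on the split plane -/

set_option autoImplicit false
set_option linter.all false

noncomputable section

namespace Vale.Agent.P014Z.In.Pc

open NumberField Matrix
open Vale.Agent.P022 (Qb GQ)
open Vale.Agent.P022.H443 (inP)
open Vale.Agent.P027M.S (Inert)
open Vale.Agent.P022D.W (dec inP_le_dec phi_mem exists_phi)
open Vale.Agent.P022E.GW (Ov Fb)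
open Vale.Agent.P022K.G2 (In Lv B2 B2.congr Ch ch om oz d0 ex_lv')
open Vale.Agent.P014U
open L2 (W M2 cu BB)
open P014Y.Mu P014Y.Mu.Ul
open P014Y.Bo (dg dg_mv Cd Kk2)

section group

variable {G k : Type} [Group G] [Field k] {D : Subgroup G} {α z : G → k}

theorem pw (hz : ∀ g ∈ D, ∀ h ∈ D, z (g * h) = z g + α g * z h) (a : ∀ g ∈ D, α g = 1) {g : G}
    (m : g ∈ D) (n : ℕ) : z (g ^ n) = n * z g := by
  induction n with
  | zero =>
    have := hz 1 D.one_mem 1 D.one_mem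
    rw [one_mul, a 1 D.one_mem, one_mul, left_eq_add] at this
    simp [this]
  | succ n ih => rw [pow_succ, hz _ (pow_mem m n) g m, ih, a _ (pow_mem m n)]; push_cast; ring

/-- a cocycle of a non trivial character which kills the commutators is a coboundary -/
theorem cob1 (hz : ∀ g ∈ D, ∀ h ∈ D, z (g * h) = z g + α g * z h)
    (c : ∀ g ∈ D, ∀ h ∈ D, α (g * h * g⁻¹ * h⁻¹) = 1 ∧ z (g * h * g⁻¹ * h⁻¹) = 0) {h : G}
    (m : h ∈ D) (n : α h ≠ 1) : ∃ v, ∀ g ∈ D, z g = α g * v - v := by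
  refine ⟨z h / (α h - 1), fun g s => ?_⟩
  have a := hz _ (mul_mem (mul_mem (mul_mem s m) (inv_mem s)) (inv_mem m)) _ (mul_mem m s)
  rw [(c g s h m).1, (c g s h m).2, show g * h * g⁻¹ * h⁻¹ * (h * g) = g * h by group, hz g s h m,
    hz h m g s] at a
  have := sub_ne_zero.2 n
  field_simp
  linear_combination -a

/-- **a cocycle which vanishes on a subgroup with abelian quotient of invertible exponent** -/
theorem cob (hz : ∀ g ∈ D, ∀ h ∈ D, z (g * h) = z g + α g * z h) {V : Set G}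
    (hV : ∀ g ∈ D, g ∈ V → α g = 1 ∧ z g = 0) (c : ∀ g ∈ D, ∀ h ∈ D, g * h * g⁻¹ * h⁻¹ ∈ V) {n : ℕ}
    (n0 : (n : k) ≠ 0) (e : ∀ g ∈ D, g ^ n ∈ V) : ∃ v, ∀ g ∈ D, z g = α g * v - v := by
  by_cases a : ∀ g ∈ D, α g = 1
  · refine ⟨0, fun g m => ?_⟩
    have := (pw hz a m n).symm.trans (hV _ (pow_mem m n) (e g m)).2
    simpa [n0] using this
  · push Not at a
    obtain ⟨h, m, a⟩ := a
    exact cob1 hz (fun g s j t => hV _ (mul_mem (mul_mem (mul_mem s t) (inv_mem s)) (inv_mem t))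
      (c g s j t)) m a

end group

variable [Pp] {θ θ' : GQ →* F} {z : GQ → F} {D Γ : Subgroup GQ} {l : ℕ} {P : Ideal (𝓞 Qb)}

/-- the cocycle of the plane -/
def yy (z : GQ → F) : X := fun g => ![0, z g]

theorem yy_zero {g : GQ} : yy z g = 0 ↔ z g = 0 :=
  ⟨fun h => congrFun h 1, fun h => funext fun i => by fin_cases i <;> simp [yy, h]⟩

theorem cl (hz : ∀ g ∈ D, ∀ h ∈ D, z (g * h) = z g + θ' g * z h)
    (op : ∃ U : Subgroup GQ, IsOpen (U : Set GQ) ∧ ∀ w ∈ D, w ∈ U → z w = 0) :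
    yy z ∈ Cl (dg θ θ') D := by
  obtain ⟨U, o, e⟩ := op
  obtain ⟨V, lv, le⟩ := ex_lv' o
  exact ⟨fun g m h n => by
    rw [dg_mv]; funext i; fin_cases i <;> simp [yy, hz g m h n], V, lv,
    fun w m n => yy_zero.2 (e w m (le n))⟩

theorem bl : yy z ∈ Bl (dg θ θ') D ↔ ∃ v, ∀ g ∈ D, z g = θ' g * v - v :=
  ⟨fun ⟨v, h⟩ => ⟨v 1, fun g m => by simpa [yy, d0_ap, dg] using congrFun (h g m) 1⟩,
    fun ⟨v, h⟩ => ⟨![0, v], fun g m => by
      rw [d0_ap, dg_mv]; funext i; fin_cases i <;> simp [yy, h g m]⟩⟩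

/-- flat: orthogonal to the unramified characters -/
def Flt (P : Ideal (𝓞 Qb)) (z : GQ → F) : Prop := ∀ u : GQ → F, Ch (dec P) u →
  (∀ g, Inert P g → u g = 0) → (fun g h => u g * (oz pp g * z h)) ∈ B2 ∅ (dec P) (ch (om pp F))

theorem det (r : R0 (dg θ θ')) (g : GQ) : θ g * θ' g = oz pp g := by
  simpa [L2.dt, dg, om] using congrFun r.det g

/-- **the condition at `pp`** -/
theorem ot (r : R0 (dg θ θ')) (o : Ov l P) (hy : yy z ∈ Cl (dg θ θ') (dec P))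
    (fl : (∀ g ∈ dec P, θ g = 1) → Flt P z) :
    yy z ∈ Ot (dg θ θ') (dec P) (Ur (dg θ θ') P) := ⟨hy, fun x hx => by
  obtain ⟨x', ⟨a1, U, lv, a4⟩, a2, a3⟩ := ur_ex r hx
  refine cu_of r ⟨a1, U, lv, a4⟩ hy a2 (by rw [sub_self]; exact zero_mem _) ?_
  have co : ∀ g ∈ dec P, ∀ h ∈ dec P, x' (g * h) 0 = x' g 0 + θ g * x' h 0 := fun g m h n => by
    simp [a1 g m h n, dg]
  have cu0 : ∀ (x : X) g h, cu (dg θ θ') x (yy z) g h = x g 0 * (θ' g * z h) := fun x g h => by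
    simp [cu, dg, P004S.wp, yy]
  by_cases t : ∀ g ∈ dec P, θ g = 1
  · rw [BB, r.det]
    refine B2.congr (fl t (fun g => x' g 0) ⟨fun g m h n => by simp only [co g m h n, t g m, one_mul],
      U, lv, fun w m n => congrFun (a4 w m n) 0⟩ fun g i => congrFun (a3 g i) 0)
        (fun g m h _ => ?_) fun _ _ => rfl
    rw [cu0, ← det r, t g m, one_mul]
  · obtain ⟨φ, f⟩ := exists_phi o.1 o.2.1 o.2.2
    have c : (fun g => ![x' g 0, 0] : X) ∈ Cl (dg θ θ') (dec P) := ⟨fun g m h n => by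
      rw [dg_mv]; funext i; fin_cases i <;> simp [co g m h n], U, lv, fun w m n => by
        funext i; fin_cases i <;> simp [a4 w m n]⟩
    have b : (fun g => ![x' g 0, 0] : X) ∈ Bl (dg θ θ') (dec P) := by
      by_cases s : ∀ g ∈ inP P, θ g = 1
      · have n : θ φ - 1 ≠ 0 := sub_ne_zero.2 fun e => t fun g m => by
          simpa [dg] using congrFun (fix_dec r o f (v := ![1, 0])
            (fun j n => by rw [dg_mv]; simp [s j n]) (by rw [dg_mv]; simp [e]) g m) 0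
        refine ⟨![x' φ 0 / (θ φ - 1), 0], fun g m => sub_eq_zero.1 (van o f
          (sub_mem c (bl_le r _ (d0_bl _ _))) (fun j n => ?_) ?_ g m)⟩
        · rw [Pi.sub_apply, d0_ap, dg_mv]
          simp [s j n, a3 j n]
        · rw [Pi.sub_apply, d0_ap, dg_mv]
          funext i
          fin_cases i <;> simp
          field_simp
          ring
      · push Not at s
        obtain ⟨j, n, e⟩ := s
        refine bl_of fun g m => ?_
        have := congrFun (fix_in ⟨a1, U, lv, a4⟩ a3 m n) 0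
        rw [dg_mv] at this
        have : x' g 0 = 0 := (mul_left_eq_self₀.1 this).resolve_left e
        funext i
        fin_cases i <;> simp [this]
    exact B2.congr (cu_left r b hy) (fun g _ h _ => by rw [cu0, cu0]; rfl) fun _ _ => rfl⟩

/-- **the packaging** -/
theorem cd (r : R0 (dg θ θ')) {S Q : Finset ℕ} {σ : ℕ → GQ} {P₀ : Ideal (𝓞 Qb)}
    (hz : ∀ g ∈ Γ, ∀ h ∈ Γ, z (g * h) = z g + θ' g * z h)
    (op : ∃ U : Subgroup GQ, IsOpen (U : Set GQ) ∧ ∀ w ∈ Γ, w ∈ U → z w = 0)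
    (un : ∀ g ∈ Γ, g ∈ In ((S ∪ Q : Finset ℕ) : Set ℕ) → z g = 0)
    (ur : ∀ l ∈ S, l ≠ pp → ∀ P, Ov l P → dec P ≤ Γ ∧ ∃ v, ∀ g, Inert P g → z g = θ' g * v - v)
    (tr : ∀ q ∈ Q, ∀ g, z (g * σ q * g⁻¹) = 0) (o : Ov pp P₀)
    (u0 : ∃ v, ∀ g, Inert P₀ g → z g = θ' g * v - v)
    (fl : ∀ P, Ov pp P → dec P ≤ Γ ∧ ((∀ g ∈ dec P, θ g = 1) → Flt P z)) :
    Cd (dg θ θ') Γ S Q σ P₀ (yy z) :=
  have c := cl (θ := θ) hz op
  ⟨c, fun g m n => yy_zero.2 (un g m n),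
    fun l m n P k => ⟨cl_mono (ur l m n P k).1 c, bl.2 (ur l m n P k).2⟩,
    fun q m g => yy_zero.2 (tr q m g), ⟨cl_mono (fl _ o).1 c, bl.2 u0⟩,
    fun P k => ot r k (cl_mono (fl P k).1 c) (fl P k).2⟩

theorem nf (a : ∃ g ∈ Γ, θ g ≠ 1) (b : ∃ g ∈ Γ, θ' g ≠ 1) : Nf (dg θ θ') Γ := fun v h => by
  obtain ⟨g, m, a⟩ := a
  obtain ⟨j, n, b⟩ := b
  have c := congrFun (h g m) 0
  have d := congrFun (h j n) 1
  rw [dg_mv] at c d
  funext i
  fin_cases i
  exacts [(mul_left_eq_self₀.1 c).resolve_left a, (mul_left_eq_self₀.1 d).resolve_left b]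

/-- **killed** -/
theorem kill {S Q : Finset ℕ} {σ : ℕ → GQ} {P₀ : Ideal (𝓞 Qb)} (k : Kk2 (dg θ θ') Γ S Q σ P₀)
    (n : Nf (dg θ θ') Γ) (c : Cd (dg θ θ') Γ S Q σ P₀ (yy z)) :
    ∃ v, ∀ g ∈ Γ, z g = θ' g * v - v :=
  bl.1 ((k.resolve_right fun h => h.1 n) _ c)

end Vale.Agent.P014Z.In.Pc
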