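import Vale.Agent.P014Z.In.St
import Vale.Agent.P014Z.In.Plc

/-! # P014Z, block In: row PLC -/

set_option autoImplicit false
set_option linter.all false

namespace Vale.Agent.P014Z.In

open Vale.Agent.P022D.W (inP_le_dec)
open Vale.Agent.P022K.G2 (oz Gz mem_Gz om0)
open Vale.Agent.P014U

variable [Pp]

theorem plc : PLC := fun Γ U S N c j χ σ f θ P D β z k => by
  have d := Pc.det D.rs.toR0
  have t : ∀ u ∈ U, θ u = oz pp u := fun u m => by rw [← d, ((D.mem u).1 m).2.1, one_mul]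
  refine ⟨fun E le => Pc.cl (fun g m h n => k.coc g (le m) h (le n))
    ((So.opn D.opn k.ne k.res).imp fun W w => ⟨w.1, fun x _ => w.2.2 x⟩), fun h => Pc.bl.2 ?_,
    fun h => ?_⟩
  · have le := inP_le_dec.trans (D.ly.fro pp D.rs.pm P D.ov).1
    refine Pc.cob (V := Gz pp) (n := pp - 1) (fun g m h n => k.coc g (le m) h (le n))
      (fun g m v => ?_) (fun g _ h _ => by simp [Gz]) ?_ fun g _ => ?_
    · have o := mem_Gz.1 v
      have u : g ∈ U := (D.mem g).2 ⟨le m, by rw [D.ine g m, o, one_pow],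
        D.ly.unr pp P D.ov (fun a => (D.ly.out pp pp_prime a).1 D.rs.pm) g (le m) m⟩
      exact ⟨(t g u).trans o, So.zero k.ne (k.res g u) (h g m o)⟩
    · rw [Nat.cast_sub pp_prime.one_le, ZMod.natCast_self, Nat.cast_one, zero_sub]
      exact neg_ne_zero.2 one_ne_zero
    · show om0 pp (g ^ (pp - 1)) = 1
      rw [map_pow, ZMod.units_pow_card_sub_one_eq_one]
  · obtain ⟨v, hv⟩ := Pc.bl.1 h
    obtain ⟨y, e, fx⟩ := So.rat k.res (v := v) fun u m => by rw [hv u ((D.mem u).1 m).1, t u m]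
    exact ⟨y, ⟨fun a => pow_ne_zero pp k.ne (by rw [← e, a, zero_pow pp_prime.ne_zero]), fx⟩, e.symm⟩

end Vale.Agent.P014Z.In
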