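import Vale.Agent.P014Z.In.St
import Vale.Agent.P004R.Ext0

/-! # P014Z, block In, rows TMR and RZ: tame places -/

set_option autoImplicit false
set_option linter.all false

noncomputable section

namespace Vale.Agent.P014Z.In

open NumberField
open scoped Classical Pointwise
open Vale.Agent.P022 (Qb GQ)
open Vale.Agent.P027M.S (Inert)
open Vale.Agent.P022D.W (dec inP_le_dec)
open Vale.Agent.P022E.GW (Ov Fb)
open Vale.Agent.P022K.G2
open Vale.Agent.P022K.CH (Frb)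
open Vale.Agent.P022K.CH.Fld (mem_dec_smul ov_smul)
open Vale.Agent.P014U
open P004K (Ip)
open P004R.Xt (unit_one ex_int smul_coe)
open P014Y.Mu (F)
open Rs

variable [Pp]

namespace Rq

variable {Γ U : Subgroup GQ} {S : Finset ℕ} {N c j l : ℕ} {χ : GQ → ℕ} {σ : ℕ → GQ}
  {f θ : GQ →* F} {P Q : Ideal (𝓞 Qb)} {x y a b : Qb} {g γ τ : GQ}

theorem ip_mul (hQ : Q.IsPrime) (h : Ip Q a) (h' : Ip Q b) : Ip Q (a * b) := by
  obtain ⟨s, t, s1, e⟩ := h
  obtain ⟨s', t', s2, e'⟩ := h'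
  refine ⟨s * s', t * t', fun k => (hQ.mem_or_mem k).elim s1 s2, ?_⟩
  show ((s : Qb) * (s' : Qb)) * (a * b) = (t : Qb) * (t' : Qb)
  rw [← e, ← e']
  ring

theorem ip_sm (g : GQ) (h : Ip (g⁻¹ • Q) a) : Ip Q (g a) := by
  obtain ⟨s, t, s1, e⟩ := h
  refine ⟨g • s, g • t, fun k => s1 ?_, by rw [smul_coe, smul_coe, ← map_mul, e]⟩
  rwa [Ideal.mem_pointwise_smul_iff_inv_smul_mem, inv_inv]

theorem fx_mul (h : Fx U x) (h' : Fx U y) : Fx U (x * y) :=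
  ⟨mul_ne_zero h.1 h'.1, fun u m => by rw [map_mul, h.2 u m, h'.2 u m]⟩

theorem fx_div (h : Fx U x) (h' : Fx U y) : Fx U (x / y) :=
  ⟨div_ne_zero h.1 h'.1, fun u m => by rw [map_div₀, h.2 u m, h'.2 u m]⟩

theorem fx_sm [n : U.Normal] (h : Fx U x) (g : GQ) : Fx U (g x) :=
  ⟨(map_ne_zero g).2 h.1, fun u m => by simpa using congrArg g (h.2 _ (n.conj_mem' u m g))⟩

theorem vl_sm [U.Normal] (g : GQ) (h : Vl U (g⁻¹ • Q) x) : Vl U Q (g x) := by
  obtain ⟨y, a, b, d⟩ := h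
  refine ⟨g y, fx_sm a g, ?_, ?_⟩
  · simpa using ip_sm g b
  · simpa using ip_sm g d

theorem vl_div (hQ : Q.IsPrime) (h : Vl U Q x) (h' : Vl U Q y) : Vl U Q (x / y) := by
  obtain ⟨u, a, b, d⟩ := h
  obtain ⟨v, a', b', d'⟩ := h'
  have e : x / y * (u / v) ^ pp = x * u ^ pp * (y * v ^ pp)⁻¹ := by
    rw [div_pow, div_mul_div_comm, div_eq_mul_inv]
  exact ⟨u / v, fx_div a a', e ▸ ip_mul hQ b d', by
    rw [e, mul_inv, inv_inv]; exact ip_mul hQ d b'⟩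

end Rq

open Rq

/-- **tame inertia fixes the roots** -/
theorem tmr : TMR := by
  rintro U l Q β o lp fx ⟨y, fy, ⟨s, t, s1, e⟩, s', t', s2, e'⟩ g m i
  have p0 : pp ≠ 0 := pp_prime.ne_zero
  have b0 : β ≠ 0 := fun k => fx.1 (by rw [k, zero_pow p0])
  have w0 := mul_ne_zero b0 fy.1
  rw [← mul_pow] at e e'
  have t0 : t ∉ Q := fun k => (o.2.1.mem_or_mem (show s * s' ∈ Q from
    (RingOfIntegers.ext (by
      show (s : Qb) * (s' : Qb) = (t : Qb) * (t' : Qb)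
      rw [← e, ← e']; field_simp) : s * s' = t * t') ▸ Q.mul_mem_right _ k)).elim s1 s2
  obtain ⟨n, hn⟩ := Nat.exists_eq_succ_of_ne_zero p0
  obtain ⟨z, hz, e2⟩ := ex_int (y := s * (β * y)) p0 (w := t * s ^ n) (by
    show _ = (t : Qb) * (s : Qb) ^ n
    rw [← e, mul_pow (s : Qb)]; nth_rw 1 [hn]; rw [pow_succ]; ring)
  obtain ⟨η, hη, e3⟩ := ex_int (y := g (β * y) / (β * y)) p0 (w := 1) (by
    rw [div_pow, ← map_pow, mul_pow, map_mul, fx.2 g m, map_pow, fy.2 g m, ← mul_pow,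
      div_self (pow_ne_zero _ w0)]; rfl)
  have z0 : z ∉ Q := fun k => (o.2.1.mem_or_mem (e2 ▸ Q.pow_mem_of_mem k _ pp_prime.pos)).elim t0
    fun k => s1 (o.2.1.mem_of_pow_mem _ k)
  have e4 : s * g • z = η * z * g • s := RingOfIntegers.ext (by
    show (s : Qb) * g z = η * z * g s
    have := fy.1
    rw [hz, hη, map_mul]; field_simp)
  have e5 : (η - 1) * (z * s) ∈ Q := by
    convert Q.sub_mem (Q.mul_mem_left s (i z)) (Q.mul_mem_left (η * z) (i s)) using 1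
    linear_combination -e4
  have e6 := unit_one o (fun d => lp ((Nat.prime_dvd_prime_iff_eq o.1 pp_prime).1 d)) e3
    ((o.2.1.mem_or_mem e5).resolve_right fun k => (o.2.1.mem_or_mem k).elim z0 s1)
  rw [e6, eq_comm, RingOfIntegers.coe_eq_algebraMap, map_one, div_eq_one_iff_eq w0, map_mul,
    fy.2 g m] at hη
  exact mul_right_cancel₀ fy.1 hη

namespace Rq

variable {Γ U : Subgroup GQ} {S : Finset ℕ} {N c j l : ℕ} {χ : GQ → ℕ} {σ : ℕ → GQ}
  {f θ : GQ →* F} {P Q : Ideal (𝓞 Qb)} {x y a b : Qb} {g γ τ : GQ}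

theorem un (o : Ov l Q) (lp : l ≠ pp) (h : Fx U x) (v : Vl U Q x) : Un pp U Q x :=
  ⟨h.1, h.2, fun g m i => (ka_eq_zero h.1 (rt_pow pp x) (inert_gz o lp i) (h.2 g m)).2
    (tmr U l Q _ o lp (by rwa [rt_pow]) (by rwa [rt_pow]) g m i)⟩

variable (D : Dt Γ U S N c j χ σ f θ P)
include D

theorem ad (m : g ∈ Γ) (m' : γ ∈ Γ) : (χ (g * γ) : ZMod (pp ^ N)) = χ g + χ γ := by
  rw [← Nat.cast_add]
  exact (ZMod.natCast_eq_natCast_iff _ _ _).2 (D.ly.add g m γ m')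

theorem md (o : Ov l Q) (d : l ∣ c) : l % pp = 1 :=
  Eq.trans ((D.ly.out l o.1 d).2.2.of_dvd (dvd_pow_self pp D.N0.ne'))
    (Nat.mod_eq_of_lt pp_prime.one_lt)

/-- adjustment by inertia -/
theorem adj (o : Ov l Q) (d : l ∣ c) (m : γ ∈ Γ) :
    ∃ t ∈ Γ, t ∈ dec Q ∧ f t = 1 ∧ pp ^ N ∣ χ (t * γ) := by
  obtain ⟨τ, i, e⟩ := D.ly.ram l Q o d
  have a := inP_le_dec (P := Q) i
  have b := (D.ly.out l o.1 d).2.1 Q o a
  have k (n : ℕ) : (χ (τ ^ n * γ) : ZMod (pp ^ N)) = n + χ γ := by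
    induction n with
    | zero => simp
    | succ n ih =>
      rw [pow_succ', mul_assoc, ad D b (mul_mem (pow_mem b n) m), ih,
        (ZMod.natCast_eq_natCast_iff _ _ _).2 e]
      push_cast; ring
  have f1 : f τ = 1 := congrFun₂ (D.rs.unr τ ⟨l, (D.ly.out l o.1 d).1, Q, o, i⟩) 0 0
  have := NeZero.of_pos (pow_pos pp_prime.pos N)
  exact ⟨τ ^ (-χ γ : ZMod (pp ^ N)).val, pow_mem b _, pow_mem a _, by rw [map_pow, f1, one_pow],
    (ZMod.natCast_eq_zero_iff _ _).1 (by rw [k, ZMod.natCast_zmod_val, neg_add_cancel])⟩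

theorem cm (m : g ∈ Γ) (m' : γ ∈ Γ) : (γ * g)⁻¹ * (g * γ) ∈ U := by
  have a := mul_mem m' m
  have b := mul_mem (inv_mem a) (mul_mem m m')
  refine (D.mem _).2 ⟨b, ?_, (ZMod.natCast_eq_zero_iff _ _).1 ?_⟩
  · rw [map_mul, map_mul, mul_comm (f g), ← map_mul, ← map_mul, inv_mul_cancel, map_one]
  · have e := ad D a b
    rw [mul_inv_cancel_left, ad D m m', ad D m' m, add_comm] at e
    exact left_eq_add.1 e

theorem vf (v : Vf Γ U N χ f x) (m : γ ∈ Γ) : Vf Γ U N χ f (γ x / x) := by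
  have := D.nm
  refine ⟨fx_div (fx_sm v.fx γ) v.fx, fun g a b => ?_, fun l Q o =>
    vl_div o.2.1 (vl_sm γ (v.vl l _ (ov_smul o _))) (v.vl l Q o)⟩
  obtain ⟨y, fy, e⟩ := v.eg g a b
  have k : g (γ x) = γ (g x) := by
    simpa using congrArg (γ * g) (v.fx.2 _ (cm D a m))
  exact ⟨γ y / y, fx_div (fx_sm fy γ) fy, by
    rw [map_div₀, k, e, map_mul, map_pow, map_pow, div_pow, div_pow, div_mul_div_comm]⟩

end Rq

/-- **residues** -/
theorem rz : RZ := by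
  intro Γ U S N c j χ σ f θ P D
  have := D.nm
  have lp {l Q} (o : Ov l Q) (d : l ∣ c) := P014Y.Rd.Mu.dgz o (md D o d)
  refine ⟨?_, fun x v γ m f1 => ⟨vf D v m, fun q Q o d β e g a b => ?_⟩⟩
  · obtain ⟨κ, hκ⟩ := Subgroup.index_eq_two_iff.1 D.idx
    have ex (i : c.primeFactors × Bool) : ∃ Q n φ, Ov i.1 Q ∧ Frb U i.1 n Q φ ∧
        Q = (if i.2 then κ⁻¹ else 1) • (D.fr _ i.1.2).1.choose := by
      have o := ov_smul (D.fr _ i.1.2).1.choose_spec.1 (if i.2 then κ⁻¹ else 1)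
      obtain ⟨n, φ, -, h⟩ := ex_frb o D.opn
      exact ⟨_, n, φ, o, h, rfl⟩
    choose R n φ o h e using ex
    have dv (i : c.primeFactors × Bool) := Nat.dvd_of_mem_primeFactors i.1.2
    refine ⟨φ, fun i => ⟨(h i).1, mem_Gz.1 (gz (o i) (md D (o i) (dv i)) (h i)),
      _, _, o i, dv i, P022K.CH.Weil.fb_dec (o i) (h i).2.1⟩,
      fun β v z q Q oq d β' e' g a b => ?_⟩
    have mq : q ∈ c.primeFactors := Nat.mem_primeFactors.2 ⟨oq.1, d, D.ly.c0⟩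
    obtain ⟨i, rfl, δ, m, r⟩ : ∃ i : c.primeFactors × Bool, q = i.1 ∧ ∃ δ ∈ Γ, R i = δ • Q := by
      obtain ⟨t, ht⟩ := P022E.GW.Tg.trans oq (o (⟨q, mq⟩, false))
      by_cases k : t ∈ Γ
      · exact ⟨_, rfl, t, k, ht⟩
      · refine ⟨(⟨q, mq⟩, true), rfl, κ⁻¹ * t, ?_, ?_⟩
        · simpa using inv_mem ((hκ t⁻¹).or.resolve_right (mt Γ.inv_mem_iff.1 k))
        · rw [mul_smul, ← ht, e, e]; simp
    obtain ⟨t, t1, t2, -, t3⟩ := adj D (o i) d m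
    obtain ⟨y, fy, k⟩ := v.eg _ (mul_mem t1 m) t3
    have a' := D.nm.conj_mem g a (t * δ)
    have b' : t * δ * g * (t * δ)⁻¹ ∈ dec (R i) := by
      have : δ * g * δ⁻¹ ∈ dec (R i) := r ▸ mem_dec_smul.2 (by simpa [mul_assoc] using b)
      simpa [mul_assoc] using mul_mem (mul_mem t2 this) (inv_mem t2)
    have u := un (o i) (lp (o i) d).1 v.fx (v.vl _ _ (o i))
    have w := loc (o i) (md D (o i) d) (h i) D.opn u ((ka_eq_zero v.fx.1 rfl
      (gz (o i) (md D (o i) d) (h i)) (v.fx.2 _ (h i).1)).2 (z i)) rfl a' b'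
    obtain ⟨s, hs⟩ := ex_log (p := pp) (γ := (t * δ) β') (β := β ^ (f (t * δ)).val * y) (by
      rw [← map_pow, e', k, mul_pow, ← pow_mul, ← pow_mul, mul_comm pp])
    have := congrArg (t * δ * g * (t * δ)⁻¹) hs
    rw [map_mul, map_mul, map_pow, map_pow, w, fy.2 _ a', mem_Gz'.1 ((lp (o i) d).2 b'), ← hs,
      ← AlgEquiv.mul_apply, inv_mul_cancel_right, AlgEquiv.mul_apply] at this
    exact (t * δ).injective this
  · obtain ⟨n, φ, -, h⟩ := ex_frb o D.opn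
    obtain ⟨t, t1, t2, t3, t4⟩ := adj D o d m
    have k : γ x = t⁻¹ x := t.injective (by
      simpa using v.fx.2 _ ((D.mem _).2 ⟨mul_mem t1 m, by rw [map_mul, t3, f1, one_mul], t4⟩))
    have w := vf D v m
    have u := un o (lp o d).1 v.fx (v.vl _ _ o)
    refine loc o (md D o d) h D.opn (un o (lp o d).1 w.fx (w.vl _ _ o)) ?_ e a b
    rw [ka_div (fx_sm v.fx γ).1 v.fx.1 (gz o (md D o d) h) ((fx_sm v.fx γ).2 _ h.1) (v.fx.2 _ h.1), k,
      inv o (md D o d) h u (inv_mem t2), sub_self]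

end Vale.Agent.P014Z.In
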