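import Vale.Agent.P014Z.In.St
import Vale.Agent.P014Z.Inr

/-! # P014Z, block In: the row `SOC` -/

set_option autoImplicit false
set_option linter.all false

noncomputable section

namespace Vale.Agent.P014Z.In

open NumberField
open Vale.Agent.P022 (Qb GQ)
open Vale.Agent.P027M.S (Inert)
open Vale.Agent.P022K.G2 (oz)
open Vale.Agent.P014U
open P014Y.Mu (F)

variable [Pp]

namespace Dt

variable {Γ U : Subgroup GQ} {S : Finset ℕ} {N c j : ℕ} {χ : GQ → ℕ} {σ : ℕ → GQ} {f θ : GQ →* F}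
  {P : Ideal (𝓞 Qb)} (D : Dt Γ U S N c j χ σ f θ P)
include D

theorem le : U ≤ Γ := fun g m => ((D.mem g).1 m).1

theorem det (g : GQ) : f g * θ g = oz pp g := by
  have : (P014Y.Bo.dg f θ g).det = _ := congrFun D.rs.det g
  rw [show P014Y.Bo.dg f θ g = Matrix.diagonal ![f g, θ g] from rfl, Matrix.det_diagonal,
    Fin.prod_univ_two] at this
  exact this.trans (by simp [P022K.G2.om])

theorem nd : ¬ pp ∣ c := fun h => (D.ly.out pp pp_prime h).1 D.rs.pm

theorem in_le {g : GQ} (i : Inert P g) : g ∈ Γ :=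
  (D.ly.fro pp D.rs.pm P D.ov).1 (P022D.W.inP_le_dec i)

theorem in_mem {g : GQ} (i : Inert P g) (e : f g = 1) : g ∈ U :=
  (D.mem g).2 ⟨D.in_le i, e, D.ly.unr pp P D.ov D.nd g (D.in_le i) i⟩

/-- the field does not contain the roots of unity -/
theorem ex_neg : ∃ u ∈ U, Inert P u ∧ oz pp u = -1 := by
  obtain ⟨u, i, e⟩ := Inr.oz_in D.ov (u := -1) (neg_ne_zero.2 one_ne_zero)
  exact ⟨u, D.in_mem i (by rw [D.ine u i, e, D.ev.1.neg_one_pow]), i, e⟩

theorem ex_oz : ∃ u ∈ U, oz pp u ≠ 1 := by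
  obtain ⟨u, m, -, e⟩ := D.ex_neg
  exact ⟨u, m, fun h => two_ne (by linear_combination e - h)⟩

end Dt

/-- **descent of the socle** -/
theorem soc : SOC := by
  intro Γ U S N c j χ σ f θ P D β fx eg
  have b0 : β ≠ 0 := fun e => fx.1 (by rw [e, zero_pow pp_ne])
  obtain ⟨z, z1, -, z2, -⟩ := So.soc (θ := f) D.le (fun g _ u m => D.nm.conj_mem' u m g) D.ex_oz
    (fun g _ h _ => map_mul f g h) (fun u m => ((D.mem u).1 m).2.1) b0 fx.2
    fun g m => (eg g m).imp fun y h => ⟨h.1.2, h.2⟩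
  refine ⟨z, b0, fun g m h n => ?_, z2⟩
  rw [z1 g m h n, ← D.det g, mul_comm (f g), mul_inv_cancel_right₀ ((Group.isUnit g).map f).ne_zero]

end Vale.Agent.P014Z.In
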