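import Vale.Agent.P014Z.In.St
import Vale.Agent.P014Z.In.Plc
import Vale.Agent.P014Y.Mu.Lev

/-! # P014Z, block In: the descended class away from the prime -/

set_option autoImplicit false
set_option linter.all false

noncomputable section

namespace Vale.Agent.P014Z.In.Ta

open NumberField IsDedekindDomain
open scoped Pointwise
open Vale.Agent.P022 (Qb GQ GK below)
open Vale.Agent.P027M.S (Inert)
open Vale.Agent.P022.H443 (inP)
open Vale.Agent.P022D.W (dec inP_le_dec phi_mem)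
open Vale.Agent.P022E.GW (Ov Fb)
open Vale.Agent.P022K.G2
open Vale.Agent.P014U Vale.Agent.P014Y.Mu

variable [Pp] {Γ U D : Subgroup GQ} {S Q : Finset ℕ} {N c l : ℕ} {χ : GQ → ℕ} {σ : ℕ → GQ}
  {P : Ideal (𝓞 Qb)} {α z : GQ → F} {β : Qb} {g : GQ}

/-- rank one cocycles -/
def Co (Γ : Subgroup GQ) (α z : GQ → F) : Prop := ∀ g ∈ Γ, ∀ h ∈ Γ, z (g * h) = z g + α g * z h

theorem Co.one (co : Co Γ α z) (a1 : α 1 = 1) : z 1 = 0 := by
  have := co 1 (one_mem _) 1 (one_mem _)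
  rw [one_mul, a1] at this
  linear_combination -this

theorem Co.pow (co : Co Γ α z) (a1 : α 1 = 1) (m : g ∈ Γ) (e : α g = 1) (k : ℕ) :
    z (g ^ k) = k * z g := by
  induction k with
  | zero => simpa using co.one a1
  | succ k ih => rw [pow_succ', co g m _ (pow_mem m k), e, ih]; push_cast; ring

theorem Co.cj (co : Co Γ α z) (a1 : α 1 = 1) (m : g ∈ Γ) (e : α g = 1) {s : GQ} (n : s ∈ Γ) :
    z (s * g * s⁻¹) = α s * z g := by
  have a := co s n _ (inv_mem n)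
  rw [mul_inv_cancel, co.one a1] at a
  rw [mul_assoc, co s n _ (mul_mem m (inv_mem n)), co g m _ (inv_mem n), e]
  linear_combination -a

/-- a cocycle which vanishes on the kernel of a character with values in the field -/
theorem Co.cob (co : Co D α z) (θ : GQ →* F) (a : ∀ g ∈ D, θ g = 1 ↔ α g = 1)
    (k : ∀ g ∈ D, θ g = 1 → z g = 0) : ∃ v, ∀ g ∈ D, z g = α g * v - v := by
  by_cases e : ∀ g ∈ D, θ g = 1
  · exact ⟨0, fun g m => by simpa using k g m (e g m)⟩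
  obtain ⟨d, n, e⟩ : ∃ d ∈ D, α d ≠ 1 := by
    by_contra! f
    exact e fun g m => (a g m).2 (f g m)
  refine ⟨z d / (α d - 1), fun g m => ?_⟩
  have w : g * d * (d * g)⁻¹ ∈ D := mul_mem (mul_mem m n) (inv_mem (mul_mem n m))
  have t : θ (g * d * (d * g)⁻¹) = 1 := by
    rw [map_mul, map_mul, mul_comm (θ g), ← map_mul, ← map_mul, mul_inv_cancel, map_one]
  have := co _ w _ (mul_mem n m)
  rw [inv_mul_cancel_right, k _ w t, (a _ w).1 t, co g m d n, co d n g m] at this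
  have := sub_ne_zero.2 e
  field_simp
  linear_combination -‹z g + α g * z d = _›

theorem chi_pow (h : Ly Γ S N c χ) (m : g ∈ Γ) (e : χ g ≡ 1 [MOD pp ^ N]) {φ : GQ} (n : φ ∈ Γ)
    (k : ℕ) : χ (φ * g ^ k) ≡ χ φ + k [MOD pp ^ N] := by
  induction k with
  | zero => simpa using Nat.ModEq.refl _
  | succ k ih =>
    rw [pow_succ, ← mul_assoc, ← add_assoc]
    exact (h.add _ (mul_mem n (pow_mem m k)) g m).trans (ih.add e)

/-- **the conditions away from the prime** -/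
theorem tam0 (h : Ly Γ S N c χ) (n : 0 < N) (θ : GQ →* F) (un : ∀ g ∈ In (S : Set ℕ), θ g = 1)
    (hU : ∀ g ∈ Γ, θ g = 1 → pp ^ N ∣ χ g → g ∈ U)
    (co : ∀ g ∈ Γ, ∀ h ∈ Γ, z (g * h) = z g + oz pp g * (θ g)⁻¹ * z h)
    (op : ∃ W : Subgroup GQ, IsOpen (W : Set GQ) ∧ ∀ w ∈ W, z w = 0)
    (v0 : ∀ l P, Ov l P → l ≠ pp → ¬ l ∣ c → ∀ u ∈ U, Inert P u → z u = 0)
    (rs : ∀ q ∈ Q, ∀ P, Ov q P → ∀ u ∈ U, u ∈ dec P → z u = 0) (pm : pp ∈ S)
    (qc : ∀ q ∈ Q, q ∣ c ∧ (∃ P, Ov q P ∧ Fb q P (σ q)) ∧ θ (σ q) = 1 ∧ ∀ g, pp ∣ χ (g * σ q * g⁻¹))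
    (tz : ∀ q : ℕ, q.Prime → q ∣ c → q ∈ Q ∨ ∀ P, Ov q P → ∃ g ∈ dec P, θ g ≠ 1) :
    (∀ g ∈ Γ, g ∈ In ((S ∪ Q : Finset ℕ) : Set ℕ) → z g = 0) ∧
    (∀ l ∈ S, l ≠ pp → ∀ P, Ov l P → ∃ v, ∀ g, Inert P g → z g = oz pp g * (θ g)⁻¹ * v - v) ∧
    ∀ q ∈ Q, ∀ g, z (g * σ q * g⁻¹) = 0 := by
  have co : Co Γ (fun g => oz pp g * (θ g)⁻¹) z := co
  have a1 : (fun g => oz pp g * (θ g)⁻¹) 1 = 1 := by simp [oz_one]
  have t0 : ∀ g, θ g ≠ 0 := fun g => left_ne_zero_of_mul_eq_one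
    (by rw [← map_mul, mul_inv_cancel, map_one] : θ g * θ g⁻¹ = 1)
  refine ⟨fun g m ⟨l, k, P, o, i⟩ => ?_, fun l m ne P o => ?_, fun q m g => ?_⟩
  · have lS : l ∉ S := fun e => k (by simp [e])
    have u : ∀ j, Inert P j → θ j = 1 := fun j b => un j ⟨l, lS, P, o, b⟩
    by_cases d : l ∣ c
    · obtain ⟨s, s1, s2⟩ := (tz l o.1 d).resolve_left (fun e => k (by simp [e])) P o
      obtain ⟨ne, kk, gz⟩ := Lv.dec_gz o (h.md n o.1 d)
      have le := (h.out l o.1 d).2.1 P o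
      have a : ∀ j, Inert P j → oz pp j * (θ j)⁻¹ = 1 := fun j b => by
        rw [gz j (inP_le_dec b), u j b, inv_one, one_mul]
      obtain ⟨W, o1, o2⟩ := op
      obtain ⟨V, p, q⟩ := ex_lv' o1
      obtain ⟨v, e⟩ := Lv.tame (f := z) o ne (fun g j s t => by
        rw [co g (le (inP_le_dec s)) j (le (inP_le_dec t))]
        simp only [a g s, one_mul]) p fun w _ b => o2 w (q b)
      have := co.cj a1 m (a g i) (le s1)
      rw [e _ (P022D.W.conj_inP s1 i), kk s s1 g i, ← e g i] at this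
      simp only [gz s s1, one_mul] at this
      refine mul_left_cancel₀ (sub_ne_zero.2 s2) ?_
      linear_combination θ s * this + z g * mul_inv_cancel₀ (t0 s)
    · exact v0 l P o (fun e => lS (e ▸ pm)) d g (hU g m (u g i) (h.unr l P o d g m i)) i
  · have d : ¬ l ∣ c := fun d => (h.out l o.1 d).1 m
    have le : inP P ≤ Γ := inP_le_dec.trans (h.fro l m P o).1
    exact Co.cob (D := inP P) (fun g a j b => co g (le a) j (le b)) θ
      (fun g a => by simp only [mem_Gz.1 (inert_gz o ne a), one_mul, inv_eq_one])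
      fun g a e => v0 l P o ne d g (hU g (le a) e (h.unr l P o d g (le a) a)) a
  · obtain ⟨d, ⟨P, o, f⟩, e1, e2⟩ := qc q m
    have o' := Ds.ov_sm o g
    have s := phi_mem o'.1 o'.2.1 (Ds.fb_sm f g)
    have le := (h.out q o.1 d).2.1 _ o'
    have gz := (Lv.dec_gz o' (h.md n o.1 d)).2.2
    obtain ⟨t, i, e⟩ := h.ram q _ o' d
    have t1 : θ t = 1 := un t ⟨q, (h.out q o.1 d).1, _, o', i⟩
    have t2 := inP_le_dec i
    have f1 : θ (g * σ q * g⁻¹) = 1 := (inferInstance : θ.ker.Normal).conj_mem _ e1 g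
    have e3 := e2 g
    generalize g * σ q * g⁻¹ = φ at *
    have w := mul_mem s (pow_mem t2 ((pp ^ N - 1) * χ φ))
    have := rs q m _ o' _ (hU _ (le w) (by rw [map_mul, map_pow, f1, t1, one_pow, one_mul])
      ((Nat.modEq_zero_iff_dvd).1 ((chi_pow h (le t2) e (le s) _).trans
        (Nat.modEq_zero_iff_dvd.2 ⟨χ φ, by
          rw [Nat.sub_one_mul, Nat.add_sub_cancel' (Nat.le_mul_of_pos_left _ (pow_pos pp_pos N))]⟩)))) w
    rw [co _ (le s) _ (le (pow_mem t2 _)), co.pow a1 (le t2)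
      (by simp only [gz t t2, t1, inv_one, one_mul]), Nat.cast_mul,
      (ZMod.natCast_eq_zero_iff (χ φ) pp).2 e3] at this
    simpa using this

open P014Y.Bo (dg) in
theorem _root_.Vale.Agent.P014Z.In.tam (tmr : TMR) : TAM := by
  intro Γ U S N c j χ σ f θ P D β z k v rz
  have f0 : ∀ g, f g ≠ 0 := fun g => left_ne_zero_of_mul_eq_one
    (by rw [← map_mul, mul_inv_cancel, map_one] : f g * f g⁻¹ = 1)
  have e : ∀ g, oz pp g * (f g)⁻¹ = θ g := fun g => by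
    rw [← Pc.det D.rs.toR0 g, mul_comm (f g), mul_inv_cancel_right₀ (f0 g)]
  have d1 : ∀ g, dg f θ g = 1 → f g = 1 := fun g a => by
    simpa [dg] using congrFun (congrFun a 0) 0
  have b : β ^ pp = β ^ pp := rfl
  obtain ⟨W, o, -, w⟩ := So.opn D.opn k.ne k.res
  obtain ⟨a1, a2, a3⟩ := tam0 (U := U) (Q := c.primeFactors) (σ := σ) (z := z) D.ly D.N0 f
    (fun g i => d1 g (D.rs.unr g i)) (fun g m s t => (D.mem g).2 ⟨m, s, t⟩)
    (fun g m h n => by rw [e, k.coc g m h n]) ⟨W, o, w⟩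
    (fun l Q o ne _ u m i => So.zero k.ne (k.res u m) (tmr U l Q β o ne v.fx (v.vl l Q o) u m i))
    (fun q m Q o u n s => So.zero k.ne (k.res u n)
      (rz q Q o (Nat.dvd_of_mem_primeFactors m) β b u n s)) D.rs.pm
    (fun q m => ⟨Nat.dvd_of_mem_primeFactors m, (D.fr q m).1, d1 _ (D.fr q m).2.1, (D.fr q m).2.2⟩)
    fun q p d => Or.inl (Nat.mem_primeFactors.2 ⟨p, d, D.ly.c0⟩)
  refine ⟨a1, fun l m ne Q o => ?_, a3⟩
  obtain ⟨x, hx⟩ := a2 l m ne Q o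
  exact Pc.bl.2 ⟨x, fun g i => by rw [hx g i, e]⟩

end Vale.Agent.P014Z.In.Ta
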