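import Vale.Agent.P014Z.Sh.Kit

/-!
# P014Z, block In: primary elements give unramified Kummer extensions (helper28)
-/

set_option autoImplicit false
set_option linter.all false

open NumberField
open scoped Pointwise

noncomputable section

namespace Vale.Agent.P014Z.In.Un

open Vale.Agent.P022 (Qb GQ)
open Vale.Agent.P027M.S (Inert)
open Vale.Agent.P022K.G2
open Sh (zi zi_prim pi_ne pi_dvd pi_mem)

variable {p : ℕ} [Fact p.Prime] {P : Ideal (𝓞 Qb)}

/-- two elements whose powers are congruent modulo `π ^ p` are congruent modulo `π` -/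
theorem near {β y w : 𝓞 Qb} (h : β ^ p - y ^ p = (1 - zi p) ^ p * w) :
    ∃ s, β - y = (1 - zi p) * s := by
  have hp : p.Prime := Fact.out
  obtain ⟨u, hu⟩ := pi_dvd (p := p)
  obtain ⟨k, hk⟩ : ∃ k, p = k + 2 := ⟨p - 2, by have := hp.two_le; omega⟩
  obtain ⟨r, hr⟩ := exists_add_pow_prime_eq hp y (β - y)
  rw [add_sub_cancel, hu] at hr
  have n0 : ((1 - zi p : 𝓞 Qb) : Qb) ≠ 0 := RingOfIntegers.coe_ne_zero_iff.2 pi_ne
  generalize 1 - zi p = π at *
  generalize β - y = x at *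
  have q : x ^ p + π ^ (p - 1) * (u * y * r) * x = π ^ p * w := by
    linear_combination h - hr
  have i : IsIntegral ℤ ((x : Qb) / π) := isIntegral_trans (A := 𝓞 Qb) _
    ⟨Polynomial.X ^ p + (Polynomial.C (u * y * r) * Polynomial.X - Polynomial.C w),
      Polynomial.monic_X_pow_add (by
        refine lt_of_le_of_lt (b := 1) (by compute_degree!) (by exact_mod_cast hp.one_lt)), by
      have q' := congrArg (algebraMap (𝓞 Qb) Qb) q
      generalize u * y * r = c at q' ⊢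
      simp only [Polynomial.eval₂_add, Polynomial.eval₂_sub, Polynomial.eval₂_mul,
        Polynomial.eval₂_pow, Polynomial.eval₂_X, Polynomial.eval₂_C]
      simp only [map_add, map_mul, map_pow, map_zero] at q'
      change _ ≠ (0 : Qb) at n0
      simp only [RingOfIntegers.coe_eq_algebraMap] at n0 ⊢
      generalize algebraMap (𝓞 Qb) Qb π = π' at n0 q' ⊢
      subst hk
      rw [show k + 2 - 1 = k + 1 from rfl] at q'
      rw [div_pow]
      field_simp
      linear_combination π' * q'⟩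
  exact ⟨⟨_, i⟩, RingOfIntegers.ext (mul_div_cancel₀ _ n0).symm⟩

theorem in_not {i : GQ} (hi : Inert P i) {d : 𝓞 Qb} (hd : d ∉ P) : i • d ∉ P := fun m =>
  hd (by simpa using P.sub_mem m (hi d))

/-- the integral form -/
theorem core (hP : P.IsPrime) (hp : (p : 𝓞 Qb) ∈ P) {i : GQ} (hi : Inert P i)
    (hz : i (zt p) = zt p) {Y d z w : 𝓞 Qb} {k : ZMod p} (hd : d ∉ P) (h0 : z ∉ P) (iz : i • z = z)
    (h : Y ^ p - (d * z) ^ p = (1 - zi p) ^ p * w)
    (e : d * i • Y = i • d * (zi p ^ k.val * Y)) : k = 0 := by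
  by_contra k0
  obtain ⟨s, hs⟩ := near h
  have iζ : i • zi p = zi p := RingOfIntegers.ext hz
  have hs' : i • Y - i • d * z = (1 - zi p) * i • s := by
    have := congrArg (fun t => i • t) hs
    simpa only [smul_sub, smul_mul', smul_one, iz, iζ] using this
  have pr := (zi_prim (p := p)).pow_of_coprime k.val (ZMod.val_coe_unit_coprime (Units.mk0 k k0))
  obtain ⟨m, -, hm⟩ := pr.eq_pow_of_pow_eq_one (zi_prim (p := p)).pow_eq_one
  obtain ⟨c, hc⟩ := one_sub_dvd_one_sub_pow (zi p ^ k.val) m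
  rw [hm] at hc
  have n0 := sub_ne_zero.2 (pr.ne_one (Fact.out : p.Prime).one_lt).symm
  have q : i • d * Y = -c * (d * (i • s - s) - (i • d - d) * s) := mul_left_cancel₀ n0 (by
    linear_combination e - d * hs' + i • d * hs - (d * i • s - i • d * s) * hc)
  have b : Y ∈ P := (hP.mem_or_mem (q ▸ P.mul_mem_left _
    (P.sub_mem (P.mul_mem_left _ (hi s)) (P.mul_mem_right _ (hi d))))).resolve_left (in_not hi hd)
  have := P.sub_mem b (hs ▸ P.mul_mem_right s (pi_mem hP hp))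
  rw [sub_sub_cancel] at this
  exact (hP.mem_or_mem this).elim hd h0

/-- **`x ≡ z ^ p` modulo `π ^ p`, locally at `P`: the inertia group fixes the roots of `x`** -/
theorem unr' (hP : P.IsPrime) (hp : (p : 𝓞 Qb) ∈ P) {i : GQ} (hi : Inert P i)
    (hz : i (zt p) = zt p) {x y : Qb} {d z t : 𝓞 Qb} (hd : d ∉ P) (h0 : z ∉ P) (iz : i • z = z)
    (h : (d : Qb) * (x - (z : Qb) ^ p) = (1 - zt p) ^ p * t) (ix : i x = x) (hy : y ^ p = x) :
    i y = y := by
  have pp : p.Prime := Fact.out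
  obtain ⟨n, hn⟩ : ∃ n, p = n + 1 := ⟨p - 1, by have := pp.pos; omega⟩
  have e1 : ((d : Qb) * y) ^ p - ((d : Qb) * z) ^ p = (1 - zt p) ^ p * ((d : Qb) ^ n * t) := by
    rw [mul_pow, mul_pow, hy, ← mul_sub, show (d : Qb) ^ p = d ^ n * d by rw [← pow_succ, ← hn],
      mul_assoc, h]
    ring
  let Y : 𝓞 Qb := ⟨d * y, IsIntegral.of_pow pp.pos (by
    rw [eq_add_of_sub_eq e1]
    exact ((1 - zi p) ^ p * (d ^ n * t) + (d * z) ^ p : 𝓞 Qb).isIntegral_coe)⟩
  obtain ⟨k, hk⟩ := ex_log (p := p) (β := y) (γ := i y) (by rw [← map_pow, hy, ix])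
  have := core hP hp hi hz (Y := Y) (w := d ^ n * t) (k := k) hd h0 iz (RingOfIntegers.ext e1)
    (RingOfIntegers.ext (by
      show (d : Qb) * i (d * y) = i d * (zt p ^ k.val * (d * y))
      rw [map_mul, hk]; ring))
  rw [hk, this, ZMod.val_zero, pow_zero, one_mul]

/-- **`x ≡ 1` modulo `π ^ p`, locally at `P`** -/
theorem unr (hP : P.IsPrime) (hp : (p : 𝓞 Qb) ∈ P) {i : GQ} (hi : Inert P i)
    (hz : i (zt p) = zt p) {x y : Qb} {d t : 𝓞 Qb} (hd : d ∉ P)
    (h : (d : Qb) * (x - 1) = (1 - zt p) ^ p * t) (ix : i x = x) (hy : y ^ p = x) : i y = y :=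
  unr' hP hp hi hz (z := 1) hd ((Ideal.ne_top_iff_one P).1 hP.ne_top) (smul_one i)
    (by simpa using h) ix hy

/-- the same for a root of `x` when `x ^ o * z ^ p ≡ 1`, `o` prime to `p`, `z` fixed -/
theorem unr_pow (hP : P.IsPrime) (hp : (p : 𝓞 Qb) ∈ P) {i : GQ} (hi : Inert P i)
    (hz : i (zt p) = zt p) {x y z : Qb} {d t : 𝓞 Qb} {o : ℕ} (ho : ¬ p ∣ o) (hd : d ∉ P)
    (h : (d : Qb) * (x ^ o * z ^ p - 1) = (1 - zt p) ^ p * t) (x0 : x ≠ 0) (z0 : z ≠ 0)
    (ix : i x = x) (iz : i z = z) (hy : y ^ p = x) : i y = y := by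
  have e := unr hP hp hi hz hd h (by rw [map_mul, map_pow, map_pow, ix, iz]) (y := y ^ o * z)
    (by rw [mul_pow, ← pow_mul, mul_comm o, pow_mul, hy])
  obtain ⟨k, hk⟩ := ex_log (p := p) (β := y) (γ := i y) (by rw [← map_pow, hy, ix])
  have y0 : y ≠ 0 := root_ne x0 hy
  rw [map_mul, map_pow, iz, hk, mul_pow] at e
  have e2 : (zt p ^ k.val) ^ o = 1 :=
    mul_right_cancel₀ (pow_ne_zero o y0) ((mul_right_cancel₀ z0 e).trans (one_mul _).symm)
  have e3 : k * (o : ZMod p) = 0 := pw_inj (by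
    rw [pw_mul, ZMod.val_zero, pow_zero, ← pow_mul, mul_comm, pow_mul, pw_nat, ← pow_mul,
      mul_comm, pow_mul, e2])
  have := (mul_eq_zero.1 e3).resolve_right fun c => ho ((ZMod.natCast_eq_zero_iff _ _).1 c)
  rw [hk, this, ZMod.val_zero, pow_zero, one_mul]

end Vale.Agent.P014Z.In.Un
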