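import Vale.Agent.P014Z.In.St
import Vale.Agent.P014Z.In.Eig
import Vale.Agent.P014Z.In.Unr

/-! # P014Z, block In: the wild inertia group fixes the roots -/

set_option autoImplicit false
set_option linter.all false

noncomputable section

namespace Vale.Agent.P014Z.In

open NumberField
open Vale.Agent.P022 (Qb GQ)
open Vale.Agent.P027M.S (Inert)
open Vale.Agent.P022D.W (dec inP_le_dec)
open Vale.Agent.P022E.GW (Ov)
open Vale.Agent.P022K.G2 (zt oz mem_Gz mem_Gz')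
open Vale.Agent.P014U
open P014Y.Mu (F)

variable [Pp] {Γ U : Subgroup GQ} {S : Finset ℕ} {N c j : ℕ} {χ : GQ → ℕ} {σ : ℕ → GQ}
  {f θ : GQ →* F} {P : Ideal (𝓞 Qb)}

/-- the wild part of the inertia group fixes the field -/
theorem Dt.wild (D : Dt Γ U S N c j χ σ f θ P) {t : GQ} (a : Inert P t) (b : oz pp t = 1) :
    t ∈ U :=
  have m := (D.ly.fro pp D.rs.pm P D.ov).1 (inP_le_dec a)
  (D.mem t).2 ⟨m, by rw [D.ine t a, b, one_pow],
    D.ly.unr pp P D.ov (fun d => (D.ly.out pp pp_prime d).1 D.rs.pm) t m a⟩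

theorem Fx.smul (n : U.Normal) {y : Qb} (h : Fx U y) (g : GQ) : Fx U (g y) :=
  ⟨(map_ne_zero g).2 h.1, fun u m => by
    have := congrArg g (h.2 _ (n.conj_mem' u m g))
    rwa [← AlgEquiv.mul_apply, ← mul_assoc, mul_inv_cancel_left, AlgEquiv.mul_apply] at this⟩

/-- the eigenvalues of a representative -/
theorem Dt.ev' (D : Dt Γ U S N c j χ σ f θ P) {x y : Qb} (fx : Fx U x) (fy : Fx U y)
    (eg : ∀ g, Inert P g → Eg U f x g) (o : ℕ) : Ei.Ev pp P j (x ^ o * y ^ pp) := by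
  refine ⟨fun t a b => by rw [map_mul, map_pow, map_pow, fx.2 t (D.wild a b), fy.2 t (D.wild a b)],
    fun g a => ?_⟩
  obtain ⟨z, fz, e⟩ := eg g a
  refine ⟨z ^ o * g y / y ^ (f g).val, fun t a b => ?_, ?_⟩
  · have m := D.wild a b
    rw [map_div₀, map_mul, map_pow, map_pow, fz.2 t m, fy.2 t m, (fy.smul D.nm g).2 t m]
  · have := fy.1
    rw [← D.ine g a, map_mul, map_pow, map_pow, e, div_pow]
    field_simp
    ring

theorem wld : WLD := by
  intro Γ U S N c j χ σ f θ P D β fx eg ⟨y, o, fy, ho, h⟩ g a b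
  obtain ⟨d, t, hd, e⟩ := Ei.eig0 D.ov (by have := D.ev.2.1; omega) D.ev.2.2 (D.ev' fx fy eg o) h
  have m := D.wild a b
  exact Un.unr_pow D.ov.2.1 D.ov.2.2 a (mem_Gz'.1 (mem_Gz.2 b)) (t := t) ho hd (by
    rw [← e, mul_left_comm, mul_div_cancel₀ _ (pow_ne_zero _ Ei.pi_ne)]) fx.1 fy.1 (fx.2 g m)
    (fy.2 g m) rfl

end Vale.Agent.P014Z.In
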