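import Vale.Agent.P014Z.St
import Vale.Agent.P014Z.In.Cnt
import Vale.Agent.P014Z.In.Wld
import Vale.Agent.P014Z.In.Plc1
import Vale.Agent.P014Z.In.Flt
import Vale.Agent.P014Z.In.Soc1
import Vale.Agent.P014Z.In.Rz
import Vale.Agent.P014Z.In.Tam
import Vale.Agent.P014Z.In.Acn

/-! # P014Z, block In: injectivity from the leading terms, the count at every level -/

set_option autoImplicit false
set_option linter.all false

noncomputable section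

namespace Vale.Agent.P014Z.In

open NumberField
open scoped Classical
open Vale.Agent.P022 (Qb GQ)
open Vale.Agent.P027M.S (Inert)
open Vale.Agent.P022D.W (dec)
open Vale.Agent.P022E.GW (Ov Fb)
open Vale.Agent.P022K.G2
open Vale.Agent.P014U
open P004K (Ip Zp)
open P014Y.Mu (F Ly)
open P014X.Ac (pw nr)
open Cn

namespace Gi

theorem acg (M : Type) [AddCommGroup M] (p i s : ℕ) (g : AddMonoid.End M)
    (W W₀ : AddSubgroup M) (hp : p.Prime) (l0 : pw M p ≤ W₀) (l1 : W₀ ≤ W)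
    (hg : ∀ x ∈ W, g x - x ∈ W₀) (hn : ∀ x ∈ W, ((g - 1) ^ i) x ∈ pw M p)
    (i0 : W₀.relIndex W ≠ 0)
    (i1 : W₀.relIndex W ≤ p ^ s) (so : ∀ x ∈ W₀, ∀ x' ∈ W₀, g x - x ∈ pw M p →
      g x' - x' ∈ pw M p → x ∈ pw M p ∨ ∃ t : ℕ, x' + t • x ∈ pw M p) :
    (pw M p).relIndex W ≠ 0 ∧ (pw M p).relIndex W ≤ p ^ (i + s) := by
  have h1 : (pw M p).relIndex (W₀ ⊓ (pw M p).comap (g - 1 : AddMonoid.End M)) ≠ 0 ∧
      (pw M p).relIndex (W₀ ⊓ (pw M p).comap (g - 1 : AddMonoid.End M)) ≤ p := by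
    by_cases c : ∃ x ∈ W₀ ⊓ (pw M p).comap (g - 1 : AddMonoid.End M), x ∉ pw M p
    · obtain ⟨x, hx, n⟩ := c
      exact Ac.line hp.pos hx ⟨x, rfl⟩ fun y hy => (so x hx.1 y hy.1 hx.2 hy.2).resolve_left n
    · push Not at c
      exact Ac.line hp.pos (zero_mem _) ⟨0, rfl⟩ fun y hy => ⟨0, by simpa using c y hy⟩
  have h2 := Ac.pows (g - 1) l0 (by
    rintro _ ⟨y, rfl⟩
    exact ⟨(g - 1) y, (map_nsmul (g - 1) p y).symm⟩) (fun x hx => hg x (l1 hx)) h1 i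
  have l2 : W₀ ≤ (pw M p).comap ((g - 1) ^ i : AddMonoid.End M) := fun x hx => hn x (l1 hx)
  rw [inf_of_le_left l2] at h2
  rw [← AddSubgroup.relIndex_mul_relIndex _ _ _ l0 l1, pow_add]
  exact ⟨mul_ne_zero h2.1 i0, Nat.mul_le_mul h2.2 i1⟩

variable [Pp] {Γ U : Subgroup GQ} {S : Finset ℕ} {N c j : ℕ} {χ : GQ → ℕ} {σ : ℕ → GQ}
  {f θ : GQ →* F} {P : Ideal (𝓞 Qb)} {x y : Qb} {γ g : GQ}

theorem zp_sg (o : Ov pp P) {a : Qb} (h : Zp P (a / (zt pp - 1) ^ j - 0)) :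
    Zp P (a / (1 - zt pp) ^ j) := by
  obtain ⟨O, V⟩ := Ei.ex_va o
  rw [sub_zero] at h
  rw [V.zp, map_div₀, map_pow] at *
  rwa [Valuation.map_sub_swap _ 1]

/-- the quotient of two numbers without leading term -/
theorem lm_div (o : Ov pp P) (h : Gl.Lm P j x 0) (h' : Gl.Lm P j y 0) :
    Gl.Lm P j (x / y) 0 := by
  obtain ⟨i, a, a0, a1, a2⟩ := h
  obtain ⟨-, b, b0, b1, b2⟩ := h'
  refine ⟨i, a / b, div_ne_zero a0 b0, fun g m n => by rw [map_div₀, a1 g m n, b1 g m n], ?_⟩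
  obtain ⟨O, V⟩ := Ei.ex_va o
  have p0 : 0 < O.valuation ((zt pp - 1) ^ j) := by
    rw [map_pow, Valuation.map_sub_swap]; exact pow_pos Ei.Va.pi0 j
  have p1 : O.valuation ((zt pp - 1) ^ j) ≤ 1 := by
    rw [map_pow, Valuation.map_sub_swap]; exact pow_le_one₀ zero_le' (V.pi1 o).le
  rw [sub_zero, V.zp, map_div₀, div_lt_one₀ p0] at a2 b2 ⊢
  rw [div_pow, div_div_div_comm]
  generalize x / a ^ pp = X at *
  generalize y / b ^ pp = Y at *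
  have e : O.valuation Y = 1 := by simpa using O.valuation.map_one_add_of_lt (b2.trans_le p1)
  have y0 : Y ≠ 0 := fun z => by simp [z] at e
  rw [show X / Y - 1 = (X - 1 - (Y - 1)) / Y by field_simp; ring, map_div₀, e, div_one]
  exact O.valuation.map_sub_lt a2 b2

theorem wld1 (D : Dt Γ U S N c j χ σ f θ P) {β : Qb} (fx : Fx U (β ^ pp))
    (eg : ∀ g, Inert P g → Eg U f (β ^ pp) g) (l : Gl.Lm P j (β ^ pp) 0) (g : GQ) (a : Inert P g)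
    (b : oz pp g = 1) : g β = β := by
  obtain ⟨-, y, y0, fy, h⟩ := l
  have ev : Ei.Ev pp P j ((β ^ pp) ^ 1 * y⁻¹ ^ pp) := by
    refine ⟨fun t a b => by
      rw [map_mul, map_pow, map_pow _ y⁻¹, map_inv₀, fx.2 t (D.wild a b), fy t a b], fun g a => ?_⟩
    obtain ⟨z, fz, e⟩ := eg g a
    refine ⟨z * (g y)⁻¹ * y ^ (f g).val, fun t a' b => ?_, ?_⟩
    · have k := congrArg g (fy (g⁻¹ * t * g) (show _ ∈ P022.H443.inP P from
        mul_mem (mul_mem (inv_mem a) a') a) (by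
          rw [oz_mul, oz_mul, b, mul_one, ← oz_mul, inv_mul_cancel, oz_one]))
      rw [← AlgEquiv.mul_apply, mul_assoc, mul_inv_cancel_left, AlgEquiv.mul_apply] at k
      rw [map_mul, map_mul, map_pow, map_inv₀, k, fy t a' b, fz.2 t (D.wild a' b)]
    · have := (map_ne_zero g).2 y0
      rw [← D.ine g a, pow_one, map_mul, map_pow _ y⁻¹, map_inv₀, e]
      generalize β ^ pp = X
      simp only [mul_pow, inv_pow]
      rw [pow_right_comm y]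
      field_simp
  obtain ⟨d, t, hd, e⟩ := Ei.eig0 D.ov (by have := D.ev.2.1; omega) D.ev.2.2 ev (by
    rw [pow_one, inv_pow, ← div_eq_mul_inv]; exact zp_sg D.ov h)
  exact Un.unr_pow D.ov.2.1 D.ov.2.2 a (mem_Gz'.1 (mem_Gz.2 b)) (t := t) pp_prime.not_dvd_one hd (by
    rw [← e, mul_left_comm, mul_div_cancel₀ _ (pow_ne_zero _ Ei.pi_ne)]) fx.1 (inv_ne_zero y0)
    (fx.2 g (D.wild a b)) (by rw [map_inv₀, fy g a b]) rfl

/-- **the socle** -/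
theorem si1 (D : Dt Γ U S N c j χ σ f θ P) (K : Kk Γ S c σ f θ P) (v : Vf Γ U N χ f x)
    (eg : ∀ g ∈ Γ, Eg U f x g) (l0 : Gl.Lm P j x 0) (rz : Rz U c x) : Pw U x := by
  obtain ⟨β, rfl⟩ := IsAlgClosed.exists_pow_nat_eq x pp_prime.pos
  obtain ⟨z, k⟩ := soc _ _ _ _ _ _ _ _ _ _ _ D β v.fx eg
  obtain ⟨t1, t2, t3⟩ := tam tmr _ _ _ _ _ _ _ _ _ _ _ D β z k v rz
  obtain ⟨p1, p2, p3⟩ := plc _ _ _ _ _ _ _ _ _ _ _ D β z k
  have le := (D.ly.fro pp D.rs.pm P D.ov).1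
  have z0 : ∀ g, z g = 0 → pl z g = 0 := fun g e => by
    rw [pl, e]; exact funext (Fin.forall_fin_two.2 ⟨rfl, rfl⟩)
  exact p3 (K _ ⟨p1 _ le_rfl, fun g m i => z0 g (t1 g m i),
    fun l m n Q o => ⟨p1 _ (D.ly.fro l m Q o).1, t2 l m n Q o⟩, fun q m g => z0 _ (t3 q m g),
    ⟨p1 _ le, p2 (wld1 D v.fx (fun g i => eg g (le (P022D.W.inP_le_dec i))) l0)⟩,
    fun Q o => flt _ _ _ _ _ _ _ _ _ _ _ D β z k v.fx Q o (v.vl _ Q o)⟩)

theorem vf_div (a : Vf Γ U N χ f x) (b : Vf Γ U N χ f y) : Vf Γ U N χ f (x / y) := by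
  refine ⟨Rq.fx_div a.fx b.fx, fun g m d => ?_, fun l Q o => Rq.vl_div o.2.1 (a.vl l Q o) (b.vl l Q o)⟩
  obtain ⟨u, fu, e⟩ := a.eg g m d
  obtain ⟨w, fw, e'⟩ := b.eg g m d
  exact ⟨u / w, Rq.fx_div fu fw, by rw [map_div₀, e, e', div_pow, div_pow, div_mul_div_comm]⟩

theorem vf_pw (nm : U.Normal) (a : Fx U x) : Vf Γ U N χ f (x ^ pp) := by
  have x0 := a.1
  refine ⟨fx_pow a _, fun g m d => ⟨g x / x ^ (f g).val, Rq.fx_div (fx_sm nm a g) (fx_pow a _), ?_⟩,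
    fun l Q o => ⟨1 / x, Rq.fx_div fx_one a, ?_⟩⟩
  · rw [map_pow, div_pow, pow_right_comm x, mul_div_cancel₀ _ (by positivity)]
  · rw [← mul_pow, mul_one_div_cancel x0, one_pow, inv_one, and_self]
    exact ⟨1, 1, o.2.1.one_notMem, by simp⟩

variable {H : Type} [Field H] {jH : H →+* Qb} (hH : ∀ x, x ∈ jH.range ↔ ∀ u ∈ U, u x = x)

theorem it {g : AddMonoid.End (Additive Hˣ)} (g1 : ∀ a, vv jH (g a) = γ (vv jH a)) (n : ℕ)
    (a : Additive Hˣ) : vv jH (((g - 1) ^ n) a) = (Gl.dT γ)^[n] (vv jH a) := by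
  induction n with
  | zero => rfl
  | succ n ih =>
    rw [pow_succ', Function.iterate_succ_apply', ← ih]
    exact (vv_sub jH (g _) _).trans (by rw [g1]; rfl)

include hH

theorem inj0 (D : Dt Γ U S N c j χ σ f θ P) (K : Kk Γ S c σ f θ P) (m : γ ∈ Γ) (f1 : f γ = 1)
    (u : ¬ pp ∣ χ γ) (v : Vf Γ U N χ f x) (l0 : ∀ n : ℕ, Gl.Lm P j ((γ ^ n) x) 0)
    (r0 : Rz U c x) : Pw U x := by
  obtain ⟨g, g1, hg⟩ := ex_g hH D.nm γ
  obtain ⟨a, rfl⟩ := ex_v hH v.fx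
  have t : ∀ a, vv jH ((g - 1) a) = γ (vv jH a) / vv jH a := fun a =>
    (vv_sub jH (g a) a).trans (by rw [g1])
  have z := nil pp_prime g (n := N) (vv_inj jH ((hg _ a).trans (v.fx.2 _ (pow_U D m f1))))
  generalize pp ^ N = n at z
  induction n generalizing a with
  | zero => exact (pw_iff hH).1 z
  | succ n ih =>
    obtain ⟨v', r'⟩ := (rz _ _ _ _ _ _ _ _ _ _ _ D).2 _ v γ m f1
    refine si1 D K v (eg D m f1 u v ?_) (l0 0) r0
    rw [← t] at v' r' ⊢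
    refine ih _ v' (fun s => ?_) r' (by rw [pow_succ] at z; exact z)
    rw [t, map_div₀, ← AlgEquiv.mul_apply, ← pow_succ]
    exact lm_div D.ov (l0 _) (l0 s)

theorem bd0 (lin : LIN) (D : Dt Γ U S N c j χ σ f θ P) (K : Kk Γ S c σ f θ P) (m : γ ∈ Γ)
    (f1 : f γ = 1) (u : ¬ pp ∣ χ γ) (i : ℕ) : ∃ (Z : Type) (_ : Finite Z) (κ : Qb → Z),
    Nat.card Z ≤ pp ^ (i + 2 * c.primeFactors.card) ∧ ∀ x y, Vf Γ U N χ f x → Vf Γ U N χ f y →
      Pw U ((Gl.dT γ)^[i] x) → Pw U ((Gl.dT γ)^[i] y) → κ x = κ y → Pw U (x / y) := by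
  have si := si wld (tam tmr) plc flt soc
  obtain ⟨g, g1, hg⟩ := ex_g hH D.nm γ
  obtain ⟨⟨φ, hφ, r1⟩, r2⟩ := rz _ _ _ _ _ _ _ _ _ _ _ D
  have gz := fun i => mem_Gz.2 (hφ i).2.1
  have fx' := fun (a : Additive Hˣ) i => (fx hH a).2 _ (hφ i).1
  let ρ : Additive Hˣ →+ (c.primeFactors × Bool → F) := AddMonoidHom.mk'
    (fun a i => ka pp (vv jH a) (φ i)) fun a b => funext fun i => by
      rw [vv_add]; exact ka_mul (fx hH a).1 (fx hH b).1 (gz i) (fx' a i) (fx' b i)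
  have k0 : ∀ a, ρ a = 0 ↔ ∀ i, φ i (rt pp (vv jH a)) = rt pp (vv jH a) := fun a =>
    funext_iff.trans (forall_congr' fun i =>
      ka_eq_zero (fx hH a).1 (rt_pow pp _) (gz i) (fx' a i))
  have t : ∀ a, vv jH (g a - a) = γ (vv jH a) / vv jH a := fun a =>
    (vv_sub jH (g a) a).trans (by rw [g1])
  have vp : ∀ b, Vf Γ U N χ f (vv jH (pp • b)) := fun b => by
    rw [vv_smul]; exact vf_pw D.nm (fx hH b)
  obtain ⟨W, hW⟩ : ∃ W : AddSubgroup (Additive Hˣ), ∀ a, a ∈ W ↔ Vf Γ U N χ f (vv jH a) ∧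
      ((g - 1) ^ i) a ∈ pw _ pp :=
    ⟨AddSubgroup.ofSub {a | Vf Γ U N χ f (vv jH a)} ⟨_, vp 0⟩ (fun a h b h' => by
      show Vf _ _ _ _ _ _
      rw [← sub_eq_add_neg, vv_sub]
      exact vf_div h h') ⊓ (pw _ pp).comap ((g - 1) ^ i : AddMonoid.End _), fun a => Iff.rfl⟩
  have vf : ∀ a ∈ W, Vf Γ U N χ f (vv jH a) := fun a h => ((hW a).1 h).1
  have rz0 : ∀ a ∈ W ⊓ ρ.ker, Rz U c (vv jH a) := fun a h => by
    have := r1 (rt pp (vv jH a))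
    rw [rt_pow] at this
    exact this (vf a h.1) ((k0 a).1 h.2)
  have e : (W ⊓ ρ.ker).relIndex W = Nat.card (W.map ρ) := by
    rw [AddSubgroup.inf_relIndex_left, AddSubgroup.relIndex_ker]
  have soc : ∀ a ∈ W ⊓ ρ.ker, g a - a ∈ pw _ pp → L0 U P j (vv jH a) → a ∈ pw _ pp :=
    fun a h s l => (pw_iff hH).2 (si _ _ _ _ _ _ _ _ _ _ _ D K _ (vf a h.1)
      (eg D m f1 u (vf a h.1) (t a ▸ (pw_iff hH).1 s)) l (rz0 a h))
  have pm : ∀ (T : AddMonoid.End (Additive Hˣ)), ∀ a ∈ pw _ pp, T a ∈ pw _ pp := by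
    rintro T _ ⟨y, rfl⟩
    exact ⟨T y, (map_nsmul T pp y).symm⟩
  have cnt : (pw _ pp).relIndex W ≠ 0 ∧
      (pw _ pp).relIndex W ≤ pp ^ (i + 2 * c.primeFactors.card) := by
    refine acg _ pp i _ g W (W ⊓ ρ.ker) pp_prime ?_ inf_le_left
      (fun a h => ⟨(hW _).2 ⟨?_, ?_⟩, ?_⟩) (fun a h => ((hW a).1 h).2)
      (e.trans_ne Nat.card_pos.ne') (e.trans_le ?_) fun a h a' h' s s' => ?_
    · rintro _ ⟨b, rfl⟩
      refine ⟨(hW _).2 ⟨vp b, pm _ _ ⟨b, rfl⟩⟩, funext fun i => ?_⟩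
      change ka pp (vv jH (pp • b)) (φ i) = 0
      rw [vv_smul]
      exact ka_pp (fx hH b).1 (gz i) (fx' b i)
    · rw [t]
      exact (r2 _ (vf a h) γ m f1).1
    · have := pm (g - 1) _ ((hW a).1 h).2
      change ((g - 1) * (g - 1) ^ i) a ∈ _ at this
      rw [← pow_succ', pow_succ] at this
      exact this
    · refine (k0 _).2 fun i => ?_
      obtain ⟨q, Q, o, d, m'⟩ := (hφ i).2.2
      exact (r2 _ (vf a h) γ m f1).2 q Q o d _ (by rw [rt_pow, t]) _ (hφ i).1 m'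
    · refine (Nat.card_le_card_of_injective _ Subtype.val_injective).trans_eq ?_
      rw [Nat.card_fun, Nat.card_zmod, Nat.card_prod, Nat.card_eq_fintype_card, Fintype.card_coe,
        Nat.card_eq_fintype_card, Fintype.card_bool, mul_comm]
    · have le' := (D.ly.fro pp D.rs.pm P D.ov).1
      refine (lin _ _ _ _ _ _ _ _ _ _ _ D _ _ (fx hH a) (fx hH a') ((vf a h.1).vl _ _ D.ov)
        ((vf a' h'.1).vl _ _ D.ov) fun s1 d => ⟨eg D m f1 u (vf a h.1) (t a ▸ (pw_iff hH).1 s) _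
          (le' d), eg D m f1 u (vf a' h'.1) (t a' ▸ (pw_iff hH).1 s') _ (le' d)⟩).imp
        (soc a h s) fun ⟨n, l⟩ => ⟨n, soc _ (add_mem h' (nsmul_mem h n)) ?_ ?_⟩
      · convert add_mem s' (nsmul_mem s n) using 1
        rw [map_add, map_nsmul, nsmul_sub]; abel
      · rwa [vv_add, vv_smul]
  refine ⟨W ⧸ (pw _ pp).addSubgroupOf W, Nat.finite_of_card_ne_zero cnt.1, fun x =>
    if h : ∃ a : W, vv jH a = x then QuotientAddGroup.mk h.choose else 0, cnt.2,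
    fun x y vx vy px py k => ?_⟩
  have ex : ∀ x, Vf Γ U N χ f x → Pw U ((Gl.dT γ)^[i] x) → ∃ a : W, vv jH a = x := fun x v p => by
    obtain ⟨a, rfl⟩ := ex_v hH v.fx
    exact ⟨⟨a, (hW a).2 ⟨v, (pw_iff hH).2 (by rwa [it g1])⟩⟩, rfl⟩
  have hx := ex x vx px
  have hy := ex y vy py
  simp only [dif_pos hx, dif_pos hy] at k
  rw [← hx.choose_spec, ← hy.choose_spec, ← vv_sub, ← pw_iff hH]
  have := QuotientAddGroup.eq.1 k.symm
  rw [neg_add_eq_sub] at this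
  exact this

omit hH in
theorem fld (U : Subgroup GQ) (x : Qb) :
    x ∈ (IntermediateField.fixedField U).val.toRingHom.range ↔ ∀ u ∈ U, u x = x :=
  ⟨fun ⟨a, e⟩ => e ▸ (IntermediateField.mem_fixedField_iff _ _).1 a.2,
    fun h => ⟨⟨x, (IntermediateField.mem_fixedField_iff _ _).2 h⟩, rfl⟩⟩

end Gi

variable [Pp] {Γ U : Subgroup GQ} {S : Finset ℕ} {N c j : ℕ} {χ : GQ → ℕ} {σ : ℕ → GQ}
  {f θ : GQ →* F} {P : Ideal (𝓞 Qb)} {x : Qb} {γ : GQ}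

/-- **injectivity** -/
theorem inj1 (D : Dt Γ U S N c j χ σ f θ P) (K : Kk Γ S c σ f θ P) (m : γ ∈ Γ) (f1 : f γ = 1)
    (u : ¬ pp ∣ χ γ) (v : Vf Γ U N χ f x) (l0 : ∀ n : ℕ, Gl.Lm P j ((γ ^ n) x) 0)
    (r0 : Rz U c x) : Pw U x := Gi.inj0 (Gi.fld U) D K m f1 u v l0 r0

/-- **the count** -/
theorem bd (lin : LIN) (D : Dt Γ U S N c j χ σ f θ P) (K : Kk Γ S c σ f θ P) (m : γ ∈ Γ)
    (f1 : f γ = 1) (u : ¬ pp ∣ χ γ) (i : ℕ) : ∃ (Z : Type) (_ : Finite Z) (κ : Qb → Z),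
    Nat.card Z ≤ pp ^ (i + 2 * c.primeFactors.card) ∧ ∀ x y, Vf Γ U N χ f x → Vf Γ U N χ f y →
      Pw U ((Gl.dT γ)^[i] x) → Pw U ((Gl.dT γ)^[i] y) → κ x = κ y → Pw U (x / y) :=
  Gi.bd0 (Gi.fld U) lin D K m f1 u i

end Vale.Agent.P014Z.In
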