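import Vale.Agent.P014Z.In.Od0
import Vale.Agent.P014Z.St

/-! # P014Z, block In: the moments of the leading terms kill the class locally -/

set_option autoImplicit false
set_option linter.all false

noncomputable section

namespace Vale.Agent.P014Z.In

open NumberField Finset IsLocalRing
open Vale.Agent.P022 (Qb GQ)
open Vale.Agent.P022E.GW (Ov)
open Vale.Agent.P014U
open Ei (Va ex_va)
open Od

variable [Pp] {P : Ideal (𝓞 Qb)} {O : ValuationSubring Qb} {j : ℕ} {x z : Qb}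

theorem Od.of_lm (V : Va P O) (h : Gl.Lm P j x z) (m : z ∈ O) :
    Lr pp P O j x (residue O ⟨z, m⟩) :=
  let ⟨a, y, y0, w, e⟩ := h
  ⟨_, y, rfl, ⟨y0, w⟩, (V.ip _).1 a, (V.zp _).1 e⟩

theorem Od.to_lm (V : Va P O) (h : Lr pp P O j x 0) : Gl.Lm P j x 0 :=
  let ⟨_, y, e, w, l⟩ := h
  ⟨(V.ip _).2 (by simp), y, w.1, w.2, (V.zp _).2 (l.congr (b := 0) (by simpa using res0.1 e)).cg⟩

theorem Od.Lr.congr {a b : ResidueField O} (h : Lr pp P O j x a) (e : a = b) : Lr pp P O j x b :=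
  e ▸ h

/-- **the moments kill the leading terms** -/
theorem od (o : Ov pp P) (j0 : 0 < j) (jp : j < pp) {γ : GQ} {N l : ℕ} (hγ : (γ ^ pp ^ N) x = x)
    (x0 : x ≠ 0) {y : ℕ → Qb} (h : ∀ m : ℕ, Gl.Lm P j ((γ ^ m) x) (y m)) (le : l ≤ pp ^ N)
    (d : Gl.Od P (pp ^ N) y l) (m : ℕ) :
    Gl.Lm P j ((γ ^ m) ((Gl.dT γ)^[pp ^ N - l] x)) 0 := by
  obtain ⟨O, V⟩ := ex_va o
  have := chr V o
  have mem : ∀ m, y m ∈ O := fun m => (O.valuation_le_one_iff _).1 ((V.ip _).1 (h m).1)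
  have r := fun m => of_lm V (h m) (mem m)
  have it : ∀ k m, Lr pp P O j ((γ ^ m) ((Gl.dT γ)^[k] x))
      (dd^[k] (fun m => residue O ⟨y m, mem m⟩) m) := fun k => by
    induction k with
    | zero => exact r
    | succ k ih =>
      intro m
      rw [Function.iterate_succ_apply', Function.iterate_succ_apply', Gl.dT, map_div₀,
        ← AlgEquiv.mul_apply, ← pow_succ]
      exact Lr.div V o j0.ne' (ih _) (ih _)
  refine to_lm V ((it (pp ^ N - l) m).congr (alg (p := pp) (fun m => ?_) le (fun i a => ?_) m))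
  · exact Lr.uniq V o j0.ne' jp ((map_ne_zero _).2 x0)
      (by simpa only [pow_add, AlgEquiv.mul_apply, hγ] using r (m + pp ^ N)) (r m)
  · have := (res0 (z := ∑ m ∈ range (pp ^ N), (m.choose i : O) * ⟨y m, mem m⟩)).2
      (by simpa using (V.zp _).1 (d i a))
    simpa [map_sum] using this

end Vale.Agent.P014Z.In
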