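import Vale.Agent.P014Z.In.Wld
import Vale.Agent.P014Z.Lk.La0

/-! # P014Z, block In: leading terms in the residue field -/

set_option autoImplicit false
set_option linter.all false

noncomputable section

namespace Vale.Agent.P014Z.In.Od

open NumberField Polynomial Finset IsLocalRing
open Vale.Agent.P022 (Qb GQ)
open Vale.Agent.P027M.S (Inert)
open Vale.Agent.P022E.GW (Ov Fb)
open Vale.Agent.P022K.G2 (zt oz zt_prim mem_Gz mem_Gz' stab_open)
open Vale.Agent.P004K (Ip Zp)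
open Ei (Va)
open Lk.La

section alg

variable {k : Type} [Field k]

/-- the difference -/
def dd (y : ℕ → k) (m : ℕ) : k := y (m + 1) - y m

/-- the generating polynomial -/
def qq (q : ℕ) (y : ℕ → k) : k[X] := ∑ m ∈ range q, C (y m) * (X + 1) ^ m

theorem qq_dd {q : ℕ} {y : ℕ → k} (h : y q = y 0) :
    (X + 1) * qq q (dd y) = -X * qq q y + C (y 0) * ((X + 1) ^ q - 1) := by
  have a := sum_range_succ (fun m => C (y m) * (X + 1 : k[X]) ^ m) q
  rw [sum_range_succ', h] at a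
  have b : (X + 1) * qq q (dd y) =
      ∑ m ∈ range q, C (y (m + 1)) * (X + 1) ^ (m + 1) - (X + 1) * qq q y := by
    simp only [qq, dd, mul_sum, ← sum_sub_distrib, map_sub]
    exact sum_congr rfl fun m _ => by ring
  rw [b, qq]
  linear_combination a

theorem qq_zero {q : ℕ} {y : ℕ → k} (h : X ^ q ∣ qq q y) {m : ℕ} (l : m < q) : y m = 0 := by
  have e : qq q y = taylor 1 (∑ m ∈ range q, C (y m) * X ^ m) := by simp [qq, map_sum, taylor_mul, taylor_pow]
  have d : (∑ m ∈ range q, C (y m) * X ^ m : k[X]).degree < q := by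
    rw [← Fin.sum_univ_eq_sum_range (fun m => C (y m) * X ^ m)]
    exact degree_sum_fin_lt _
  have z := eq_zero_of_dvd_of_degree_lt h (by rwa [e, degree_taylor, degree_X_pow])
  have := congrArg (coeff · m) ((taylor_eq_zero _ _).1 (e ▸ z))
  simpa [finset_sum_coeff, coeff_X_pow, l] using this

/-- **moments and differences** -/
theorem alg {p n : ℕ} [Fact p.Prime] [CharP k p] {y : ℕ → k} (h : ∀ m, y (m + p ^ n) = y m) {l : ℕ}
    (le : l ≤ p ^ n) (o : ∀ i < l, ∑ m ∈ range (p ^ n), (m.choose i : k) * y m = 0) (m : ℕ) :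
    dd^[p ^ n - l] y m = 0 := by
  have key : ∀ s, l + s ≤ p ^ n → (∀ m, dd^[s] y (m + p ^ n) = dd^[s] y m) ∧
      X ^ (l + s) ∣ qq (p ^ n) (dd^[s] y) := fun s => by
    induction s with
    | zero => exact fun _ => ⟨h, X_pow_dvd_iff.2 fun i a => by
        simpa [qq, finset_sum_coeff, coeff_X_add_one_pow, mul_comm] using o i a⟩
    | succ s ih =>
      intro a
      obtain ⟨b, c⟩ := ih (by omega)
      rw [Function.iterate_succ_apply']
      refine ⟨fun m => by rw [dd, dd, add_right_comm, b, b], IsCoprime.dvd_of_dvd_mul_left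
        (IsCoprime.pow_left (y := X + 1) ⟨-1, 1, by ring⟩) ?_⟩
      rw [qq_dd (by simpa using b 0), add_pow_char_pow, one_pow, add_sub_cancel_right]
      exact dvd_add (by rw [← add_assoc, pow_succ', neg_mul, dvd_neg]; exact mul_dvd_mul_left _ c)
        ((pow_dvd_pow _ a).mul_left _)
  obtain ⟨a, b⟩ := key (p ^ n - l) (by omega)
  rw [Nat.add_sub_cancel' le] at b
  induction m using Nat.strong_induction_on with
  | _ m ih =>
    by_cases c : m < p ^ n
    · exact qq_zero b c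
    · have := pow_pos (Fact.out : p.Prime).pos n
      rw [← Nat.sub_add_cancel (not_lt.1 c), a]
      exact ih _ (by omega)

end alg

variable {p : ℕ} [Fact p.Prime] {P : Ideal (𝓞 Qb)} {O : ValuationSubring Qb}

variable (p P) in
/-- fixed by the wild inertia group -/
def Wi (y : Qb) : Prop := y ≠ 0 ∧ ∀ g, Inert P g → oz p g = 1 → g y = y

theorem Wi.mul {x y : Qb} (a : Wi p P x) (b : Wi p P y) : Wi p P (x * y) :=
  ⟨mul_ne_zero a.1 b.1, fun g i o => by rw [map_mul, a.2 g i o, b.2 g i o]⟩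

theorem Wi.div {x y : Qb} (a : Wi p P x) (b : Wi p P y) : Wi p P (x / y) :=
  ⟨div_ne_zero a.1 b.1, fun g i o => by rw [map_div₀, a.2 g i o, b.2 g i o]⟩

theorem Wi.pow {x : Qb} (a : Wi p P x) (n : ℕ) : Wi p P (x ^ n) :=
  ⟨pow_ne_zero _ a.1, fun g i o => by rw [map_pow, a.2 g i o]⟩

variable (p P O) in
/-- the leading term in the residue field -/
def Lr (j : ℕ) (x : Qb) (a : ResidueField O) : Prop := ∃ (z : O) (y : Qb), residue O z = a ∧
  Wi p P y ∧ Lm O.valuation ((zt p - 1) ^ j) (x / y ^ p) z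

theorem res0 {z : O} : residue O z = 0 ↔ O.valuation z < 1 :=
  (residue_eq_zero_iff _).trans (O.valuation_lt_one_iff z)

theorem z0 : zt p - 1 ≠ 0 := sub_ne_zero.2 ((zt_prim p).ne_one (Fact.out : p.Prime).one_lt)

variable {j : ℕ} {x x' w : Qb} {a a' : ResidueField O}

theorem Lr.pth (h : Lr p P O j x a) (t : Wi p P w) : Lr p P O j (x * w ^ p) a :=
  let ⟨z, y, e, wy, l⟩ := h
  ⟨z, y * w, e, wy.mul t, by rwa [mul_pow, mul_div_mul_right _ _ (pow_ne_zero _ t.1)]⟩

variable (V : Va P O) (o : Ov p P) (j0 : j ≠ 0)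
include V o

theorem z1 : O.valuation (zt p - 1) < 1 := (O.valuation.map_sub_swap _ _).trans_lt (V.pi1 o)

theorem chr : CharP (ResidueField O) p := (CharP.charP_iff_prime_eq_zero o.1).2 (by
  rw [← map_natCast (residue O)]; exact res0.2 (V.p1 o))

/-- a power which is a principal unit -/
theorem pth0 (jp : j < p) (t : Wi p P w) (h : O.valuation (w ^ p - 1) < 1) :
    Lm O.valuation ((zt p - 1) ^ j) (w ^ p) 0 := by
  have w1 : O.valuation w ≤ 1 := le_of_pow_le_pow_left₀ o.1.ne_zero zero_le' (by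
    rw [← map_pow, one_pow, eq_one h])
  have w2 : O.valuation (w - 1) ≤ 1 := O.valuation.map_sub_le w1 (map_one _).le
  obtain ⟨r, hr, e⟩ := pow_sub o.1 w w2
  have w3 : O.valuation (w - 1) < 1 := lt_of_pow_lt_pow_left₀ p zero_le' (by
    rw [← map_pow, one_pow, ← sub_eq_iff_eq_add.2 e]
    exact O.valuation.map_sub_lt h (mul_lt (mul_lt (V.p1 o) w2) hr))
  have w4 := Va.lm_le.1 (V.nxt o (i := 0) t.2 (by simpa [Ei.lm] using w3))
  rw [zero_add, pow_one, O.valuation.map_sub_swap 1] at w4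
  exact Lm.pth o.1 z0 (z1 V o) (by rw [V.pv, O.valuation.map_sub_swap]) w4 jp

/-- the order of a unit -/
theorem ex_o (a : Ip P x) (b : Ip P x⁻¹) (x0 : x ≠ 0) :
    ∃ n, ¬ p ∣ n ∧ O.valuation (x ^ n - 1) < 1 := by
  have v : O.valuation x = 1 := le_antisymm ((V.ip _).1 a) (by
    have := (V.ip _).1 b
    rwa [map_inv₀, inv_le_one₀ (O.valuation.pos_iff.2 x0)] at this)
  obtain ⟨s, t, hs, e⟩ := a
  obtain ⟨φ, f⟩ := P022D.W.exists_phi o.1 o.2.1 o.2.2
  obtain ⟨n, n0, m⟩ := P004F.Lt.ex_pow (U := MulAction.stabilizer GQ (s : Qb) ⊓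
    MulAction.stabilizer GQ (t : Qb)) ((stab_open _).inter (stab_open _)) φ
  have k : ∀ u : 𝓞 Qb, (φ ^ n) (u : Qb) = u → O.valuation (u - (u : Qb) ^ p ^ n) < 1 := fun u c =>
    (V.zp _).1 ⟨1, _, o.2.1.one_notMem, Rs.fb_k o f n u, by
      rw [show φ ^ n • u = u from RingOfIntegers.ext c]; simp⟩
  have vs : O.valuation s = 1 := le_antisymm (V.int s) (not_lt.1 fun c => by
    obtain ⟨s', t', a, b, d⟩ := (V.zp _).2 c
    exact (o.2.1.mem_or_mem (x := s') (y := s)
      (by rwa [show s' * s = t' from RingOfIntegers.ext d])).elim a hs)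
  have q : p ^ n = p ^ n - 1 + 1 := (Nat.sub_add_cancel (pow_pos o.1.pos n)).symm
  refine ⟨p ^ n - 1, fun d => o.1.one_lt.ne' (Nat.dvd_one.1
    ((Nat.dvd_add_right d).1 (q ▸ dvd_pow_self p n0.ne'))), ?_⟩
  have := O.valuation.map_sub_lt (mul_lt (k s m.1) v.le) (k t m.2)
  rwa [← e, mul_pow, show ((s : Qb) - s ^ p ^ n) * x - (s * x - s ^ p ^ n * x ^ p ^ n) =
    s ^ p ^ n * x * (x ^ (p ^ n - 1) - 1) by rw [mul_sub, mul_assoc, ← pow_succ', ← q]; ring,
    map_mul, map_mul, map_pow, vs, v, one_pow, one_mul, one_mul] at this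

include j0

theorem z2 : O.valuation ((zt p - 1) ^ j) < 1 := by
  rw [map_pow]; exact pow_lt_one₀ zero_le' (z1 V o) j0

theorem Lr.div (h : Lr p P O j x a) (h' : Lr p P O j x' a') : Lr p P O j (x / x') (a - a') := by
  obtain ⟨z, y, rfl, wy, l⟩ := h
  obtain ⟨z', y', rfl, wy', l'⟩ := h'
  refine ⟨z - z', y / y', map_sub _ _ _, wy.div wy', ?_⟩
  have := l.mul (pow_ne_zero _ z0) (z2 V o j0) (l'.inv (pow_ne_zero _ z0) (z2 V o j0))
  rwa [← div_eq_mul_inv, div_div_div_comm, ← div_pow, ← sub_eq_add_neg] at this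

theorem Lr.pow (h : Lr p P O j x a) (n : ℕ) : Lr p P O j (x ^ n) (n * a) := by
  obtain ⟨z, y, rfl, wy, l⟩ := h
  refine ⟨n * z, y ^ n, by rw [map_mul, map_natCast], wy.pow n, ?_⟩
  have := l.pow (pow_ne_zero _ z0) (z2 V o j0) n
  rwa [div_pow, ← pow_mul, mul_comm p, pow_mul] at this

theorem Lr.uniq (jp : j < p) (x0 : x ≠ 0) (h : Lr p P O j x a) (h' : Lr p P O j x a') : a = a' := by
  obtain ⟨z, y, e, wy, l⟩ := Lr.div V o j0 h h'
  rw [div_self x0, show 1 / y ^ p = (1 / y) ^ p by rw [div_pow, one_pow]] at l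
  refine sub_eq_zero.1 (e ▸ res0.2 ?_)
  simpa using l.uniq (pth0 V o jp (Wi.div ⟨one_ne_zero, fun g _ _ => map_one g⟩ wy)
    (l.lt (pow_ne_zero _ z0) (z2 V o j0)))

/-- **the leading term vanishes** -/
theorem Lr.zp (jp : j < p) (x0 : x ≠ 0) (h : Lr p P O j x 0) (t : Wi p P w) (a : Ip P (x * w ^ p))
    (b : Ip P (x * w ^ p)⁻¹) : ∃ n, ¬ p ∣ n ∧ Zp P ((x ^ n * (w ^ n) ^ p - 1) / (1 - zt p) ^ j) := by
  obtain ⟨n, hn, c⟩ := ex_o V o a b (mul_ne_zero x0 (pow_ne_zero _ t.1))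
  obtain ⟨z, y, e, wy, l⟩ := (Lr.pow V o j0 h n).pth (t.pow n)
  rw [mul_zero, res0] at e
  rw [mul_pow, ← pow_mul, mul_comm p, pow_mul] at c
  refine ⟨n, hn, (V.zp _).2 ?_⟩
  generalize x ^ n * (w ^ n) ^ p = X at l c ⊢
  have d := l.lt (pow_ne_zero _ z0) (z2 V o j0)
  have y0 := pow_ne_zero p wy.1
  have v : O.valuation (y ^ p) = 1 := by
    have := eq_one d
    rwa [map_div₀, eq_one c, one_div, inv_eq_one] at this
  have := l.mul (pow_ne_zero _ z0) (z2 V o j0) (pth0 V o jp wy (by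
    rw [show y ^ p - 1 = (X - 1) - y ^ p * (X / y ^ p - 1) by field_simp; ring]
    exact O.valuation.map_sub_lt c (mul_lt' v.le d)))
  rw [div_mul_cancel₀ _ y0, add_zero] at this
  have k := O.valuation.map_add_lt this.cg e
  rwa [sub_add_cancel, map_div₀, map_pow, O.valuation.map_sub_swap (zt p), ← map_pow,
    ← map_div₀] at k

end Vale.Agent.P014Z.In.Od
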