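import Vale.Agent.P014Z.In.All0
import Vale.Agent.P014Z.Lk.La1

/-! # P014Z, block In: the order of the leading terms (row `OD`) -/

set_option autoImplicit false
set_option linter.all false

noncomputable section

namespace Vale.Agent.P014Z.In

open NumberField Finset
open Vale.Agent.P022 (Qb GQ)
open Vale.Agent.P014U
open P014Y.Mu (F)
open P014X.Ac (pw)
open Cn Lk.La

namespace O1

section

variable {M : Type} [AddCommGroup M] {p n : ℕ} (g : AddMonoid.End M) (a : M)

/-- the binomial sums -/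
def sm (N r : ℕ) : M := ∑ m ∈ range N, m.choose r • (g ^ m) a

theorem mp (t : AddMonoid.End M) {x : M} (h : x ∈ pw M p) : t x ∈ pw M p := by
  obtain ⟨y, rfl⟩ := h
  exact ⟨t y, (map_nsmul t p y).symm⟩

theorem tel (N r : ℕ) : (g - 1) (sm g a N (r + 1)) + g (sm g a N r) = N.choose (r + 1) • (g ^ N) a := by
  induction N with
  | zero => simp [sm]
  | succ N ih =>
    have e : ∀ x, (g - 1) x = g x - x := fun _ => rfl
    have f : g ((g ^ N) a) = (g ^ (N + 1)) a := by rw [pow_succ']; rfl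
    simp only [sm, sum_range_succ, map_add, map_nsmul] at ih ⊢
    rw [e ((g ^ N) a), f, Nat.choose_succ_succ', add_nsmul, nsmul_sub]
    rw [← sub_eq_zero, ← sub_eq_zero.2 ih]
    abel

variable {g a}

theorem key (hp : p.Prime) (h : (g ^ p ^ n) a = a) (s : ℕ) : ∀ r, r + s + 1 = p ^ n →
    ∃ k : ℕ, sm g a (p ^ n) r - (-1 : ℤ) ^ s • (g ^ k) (((g - 1) ^ s) a) ∈ pw M p := by
  induction s with
  | zero =>
    refine fun r e => ⟨r, ?_⟩
    rw [← e, add_zero, sm, sum_range_succ, sum_eq_zero fun m l => by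
      rw [Nat.choose_eq_zero_of_lt (mem_range.1 l), zero_nsmul]]
    simp
  | succ s ih =>
    intro r e
    obtain ⟨k, hk⟩ := ih (r + 1) (by omega)
    obtain ⟨c, hc⟩ := hp.dvd_choose_pow (n := n) (k := r + 1) r.succ_ne_zero (by omega)
    have t := tel g a (p ^ n) r
    have q : (g ^ (r + s + 1)) (g (sm g a (p ^ n) r)) = sm g a (p ^ n) r := by
      change (g ^ (r + s + 1) * g) _ = _
      rw [← pow_succ, show r + s + 1 + 1 = p ^ n from e, sm, map_sum]
      refine sum_congr rfl fun m _ => ?_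
      rw [map_nsmul]
      change _ • (g ^ p ^ n * g ^ m) a = _
      rw [pow_mul_comm]
      exact congrArg _ (congrArg _ h)
    have w : (g ^ (r + s + 1)) ((g - 1) ((g ^ k) (((g - 1) ^ s) a))) =
        (g ^ (r + s + 1 + k)) (((g - 1) ^ (s + 1)) a) := by
      change (g ^ (r + s + 1) * ((g - 1) * (g ^ k * (g - 1) ^ s))) a =
        (g ^ (r + s + 1 + k) * (g - 1) ^ (s + 1)) a
      rw [← mul_assoc (g - 1), (((Commute.refl g).sub_left (Commute.one_left g)).pow_right k).eq,
        pow_add _ _ k, pow_succ' (g - 1)]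
      simp only [mul_assoc]
    refine ⟨r + s + 1 + k, ?_⟩
    have t' : (g - 1) (sm g a (p ^ n) (r + 1)) + g (sm g a (p ^ n) r) ∈ pw M p :=
      ⟨c • (g ^ p ^ n) a, by rw [t, hc, mul_nsmul']; rfl⟩
    have u := sub_mem (mp (g ^ (r + s + 1)) t') (mp (g ^ (r + s + 1)) (mp (g - 1) hk))
    rw [map_add, q, map_sub (g - 1), map_sub, map_zsmul, map_zsmul, w] at u
    convert u using 1
    rw [pow_succ (-1 : ℤ), mul_neg_one, neg_zsmul]
    abel

theorem fixp {z : M} (h : (g - 1) z ∈ pw M p) (k : ℕ) : (g ^ k) z - z ∈ pw M p := by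
  induction k with
  | zero => simp
  | succ k ih =>
    have := add_mem (mp g ih) h
    rwa [map_sub, show (g - 1) z = g z - z from rfl, sub_add_sub_cancel,
      show g ((g ^ k) z) = (g ^ (k + 1)) z by rw [pow_succ']; rfl] at this

theorem soc (hp : p.Prime) (h : (g ^ p ^ n) a = a) {s r : ℕ} (e : r + s + 1 = p ^ n)
    (z : (g - 1) (((g - 1) ^ s) a) ∈ pw M p) :
    ∃ w, ((g - 1) ^ s) a = (-1 : ℤ) ^ s • sm g a (p ^ n) r + p • w := by
  obtain ⟨k, hk⟩ := key hp h s r e
  obtain ⟨w, hw⟩ := neg_mem (add_mem (zsmul_mem hk ((-1) ^ s)) (fixp z k))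
  refine ⟨w, ?_⟩
  rw [nsmulAddMonoidHom_apply, smul_sub, smul_smul, ← mul_pow, neg_one_mul, neg_neg, one_pow,
    one_smul] at hw
  rw [hw]
  abel

end

variable {H : Type} [Field H] (jH : H →+* Qb)

theorem vv_zsmul (n : ℤ) (a : Additive Hˣ) : vv jH (n • a) = vv jH a ^ n := by simp [vv]

theorem vv_sm (g : AddMonoid.End (Additive Hˣ)) (a : Additive Hˣ) (N r : ℕ) :
    vv jH (sm g a N r) = ∏ m ∈ range N, vv jH ((g ^ m) a) ^ m.choose r := by
  induction N with
  | zero => exact vv_zero jH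
  | succ N ih => rw [sm, sum_range_succ, prod_range_succ, vv_add, vv_smul, ← ih, sm]

end O1

open O1 in
/-- **the order of the leading terms** -/
theorem od1 [Pp] : OD := by
  intro Γ U S N c j χ σ f θ P D K γ m f1 u x y l v lm lt od
  have hH := Gi.fld U
  generalize (IntermediateField.fixedField U).val.toRingHom = jH at hH
  obtain ⟨g, g1, hg⟩ := ex_g hH D.nm γ
  obtain ⟨a, rfl⟩ := ex_v hH v.fx
  have fa := vv_inj jH ((hg _ a).trans (v.fx.2 _ (pow_U D m f1)))
  have j0 : j ≠ 0 := by have := D.ev.2.1; omega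
  have vr : ∀ s, Vf Γ U N χ f ((Gl.dT γ)^[s] (vv jH a)) := fun s => by
    induction s with
    | zero => exact v
    | succ s ih =>
      rw [Function.iterate_succ_apply']
      exact ((rz _ _ _ _ _ _ _ _ _ _ _ D).2 _ ih γ m f1).1
  have H : ∀ i ≤ l, Pw U ((Gl.dT γ)^[pp ^ N - i] (vv jH a)) := fun i le => by
    induction i with
    | zero => rw [← Gi.it g1, ← pw_iff hH]; exact nil pp_prime g fa
    | succ r ih =>
      obtain ⟨s, hs⟩ : ∃ s, pp ^ N = r + (s + 1) + 1 := ⟨pp ^ N - r - 2, by omega⟩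
      have z := ih (by omega)
      rw [show pp ^ N - r = s + 1 + 1 by omega, Function.iterate_succ_apply'] at z
      rw [show pp ^ N - (r + 1) = s + 1 by omega]
      refine Gi.si1 D K (vr _) (eg D m f1 u (vr _) z) ?_ ?_
      · obtain ⟨w, hw⟩ := O1.soc pp_prime fa hs.symm ((pw_iff hH).2 (by
          rw [← Function.iterate_succ_apply' (Gl.dT γ), ← Gi.it g1, pow_succ'] at z
          exact z))
        rw [← Gi.it g1, hw, vv_add, vv_smul, vv_zsmul, vv_sm]
        simp only [hg]
        have := ((Lg.prod D.ov j0 (range (pp ^ N)) fun k _ =>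
          Lg.pow D.ov j0 (lm k) (k.choose r)).congr D.ov (z' := 0)
            (by rw [sub_zero]; exact od r le)).zpow D.ov j0 ((-1) ^ (s + 1))
        rw [mul_zero] at this
        exact this.pth D.ov ⟨(fx hH w).1, fun t i o => (fx hH w).2 t (D.wild i o)⟩
      · rw [Function.iterate_succ_apply']
        exact ((rz _ _ _ _ _ _ _ _ _ _ _ D).2 _ (vr s) γ m f1).2
  exact H l le_rfl

end Vale.Agent.P014Z.In
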