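import Vale.Agent.P014Y.Rd.Mu
import Vale.Agent.P022K.CH.Weil
import Vale.Agent.P027M.S.Cls
import Vale.Agent.P004F.Lt.Grp

/-!
# P014Z, block In: residue symbols at tame places
-/

set_option autoImplicit false
set_option linter.all false

open NumberField IsDedekindDomain
open scoped Pointwise

noncomputable section

namespace Vale.Agent.P014Z.In.Rs

open Vale.Agent.P022 (Qb GQ GK below)
open Vale.Agent.P022.H443 (inP)
open Vale.Agent.P027M.S (Inert)
open Vale.Agent.P022D.W (dec exists_phi conj_inP dec_gen)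
open Vale.Agent.P022E.GW (Ov Fb)
open Vale.Agent.P022K.G2
open Vale.Agent.P022K.CH (Frb)
open Vale.Agent.P022K.CH.Weil (fb_dec fb_add fb_pow fb_div fb_zero fb_conj)

variable {U W : Subgroup GQ} {l n : ℕ} {Q : Ideal (𝓞 Qb)} {φ g h : GQ} {x y t : Qb}

theorem fb_k (o : Ov l Q) (f : Fb l Q φ) (k : ℕ) : Fb (l ^ k) Q (φ ^ k) := by
  simpa using fb_pow o (a := 1) (by rwa [pow_one]) k

theorem frb_one (m : φ ∈ U) (f : Fb l Q φ) : Frb U l 1 Q φ :=
  ⟨m, by rwa [pow_one], fun _ _ _ _ => one_dvd _⟩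

/-- a Frobenius element of the field of `U` -/
theorem ex_frb (o : Ov l Q) (hU : IsOpen (U : Set GQ)) : ∃ n φ, 0 < n ∧ Frb U l n Q φ := by
  classical
  obtain ⟨σ, f⟩ := exists_phi o.1 o.2.1 o.2.2
  have ex : ∃ n, 0 < n ∧ ∃ φ ∈ U, Fb (l ^ n) Q φ :=
    let ⟨n, a, b⟩ := P004F.Lt.ex_pow hU σ
    ⟨n, a, _, b, fb_k o f n⟩
  obtain ⟨a, φ, m, b⟩ := Nat.find_spec ex
  refine ⟨_, φ, a, m, b, fun z mz k c => Nat.dvd_of_mod_eq_zero (Nat.eq_zero_of_not_pos fun d =>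
    Nat.find_min ex (Nat.mod_lt k a) ⟨d, (φ ^ (k / Nat.find ex))⁻¹ * z,
      mul_mem (inv_mem (pow_mem m _)) mz, ?_⟩)⟩
  have e := fb_add o (fb_pow o b (k / Nat.find ex)) (fb_k o f (k % Nat.find ex))
  rw [Nat.div_add_mod] at e
  simpa [mul_assoc] using fb_add o (fb_k o f (k % Nat.find ex)) (fb_zero.2 (fb_div o e c))

/-- it generates the decomposition group modulo inertia -/
theorem gen (o : Ov l Q) (hU : IsOpen (U : Set GQ)) (F : Frb U l n Q φ) (hW : IsOpen (W : Set GQ))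
    (m : φ ∈ W) (i : ∀ g ∈ U, Inert Q g → g ∈ W) (a : g ∈ U) (d : g ∈ dec Q) : g ∈ W := by
  obtain ⟨σ, f⟩ := exists_phi o.1 o.2.1 o.2.2
  obtain ⟨k, s, u, hs, hu, rfl⟩ := dec_gen o.1 o.2.1 o.2.2 f d (U ⊓ W) (hU.inter hW)
  rw [mul_assoc] at a ⊢
  have b := (U.mul_mem_cancel_left hu.1).1 a
  have e : Fb (l ^ k) Q (σ ^ k * s) := fb_add o (fb_k o f k) (fb_zero.2 hs)
  obtain ⟨q, rfl⟩ := F.2.2 _ b k e
  exact mul_mem hu.2 ((W.mul_mem_cancel_left (inv_mem (pow_mem m q))).1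
    (i _ (mul_mem (inv_mem (pow_mem F.1 q)) b) (fb_div o (fb_pow o F.2.1 q) e)))

theorem fb_sm {a : ℕ} (f : Fb a Q φ) (g : GQ) : Fb a (g • Q) (g * φ * g⁻¹) := fun x => by
  rw [Ideal.mem_pointwise_smul_iff_inv_smul_mem, smul_sub, mul_smul, mul_smul, inv_smul_smul,
    smul_pow']
  exact f _

/-- the conjugate places -/
theorem frb_sm [N : U.Normal] (F : Frb U l n Q φ) (h : GQ) : Frb U l n (h • Q) (h * φ * h⁻¹) :=
  ⟨N.conj_mem _ F.1 h, fb_sm F.2.1 h, fun z m k c => F.2.2 _ (N.conj_mem _ m h⁻¹) k (by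
    simpa using fb_sm c h⁻¹)⟩

variable (p : ℕ) [Fact p.Prime]

/-- the roots of `x` are unramified at `Q` over the field of `U` -/
structure Un (U : Subgroup GQ) (Q : Ideal (𝓞 Qb)) (x : Qb) : Prop where
  ne : x ≠ 0
  fix : ∀ g ∈ U, g x = x
  un : ∀ g ∈ U, Inert Q g → ka p x g = 0

variable {p}

theorem Un.mul (o : Ov l Q) (lp : l ≠ p) (a : Un p U Q x) (b : Un p U Q y) : Un p U Q (x * y) :=
  ⟨mul_ne_zero a.ne b.ne, fun g m => by rw [map_mul, a.fix g m, b.fix g m], fun g m i => by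
    rw [ka_mul a.ne b.ne (inert_gz o lp i) (a.fix g m) (b.fix g m), a.un g m i, b.un g m i, add_zero]⟩

theorem Un.cj [N : U.Normal] (o : Ov l Q) (lp : l ≠ p) (a : Un p U Q x) (d : g ∈ dec Q) :
    Un p U Q (g x) :=
  ⟨(map_ne_zero g).2 a.ne, fun u m => by
    simpa using congrArg g (a.fix _ (N.conj_mem' u m g)), fun u m i => by
    have i' : Inert Q (g⁻¹ * u * g⁻¹⁻¹) := conj_inP (inv_mem d) i
    have m' := N.conj_mem u m g⁻¹
    have k := ka_conj a.ne g (inert_gz o lp i') (a.fix _ m')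
    rw [a.un _ m' i'] at k
    simpa [mul_assoc] using k⟩

/-- valuations which are multiples of `p` -/
theorem un_of {H : Type} [Field H] [NumberField H] (j : H →+* Qb) (o : Ov l Q) (lp : l ≠ p) {a : H}
    (a0 : a ≠ 0) (h : ∀ v : HeightOneSpectrum (𝓞 H), below j Q = v.asIdeal →
      (p : ℤ) ∣ P022.C.ordv v a) : Un p (GK j) Q (j a) :=
  let ⟨v, hv⟩ := P022K.CH.exists_below j o
  ⟨(map_ne_zero j).2 a0, fun _ m => m a, fun _ m i => ka_of_dvd j o lp hv a0 (h v hv) m i⟩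

/-- the same with ideals -/
theorem un_id {H : Type} [Field H] [NumberField H] (j : H →+* Qb) (o : Ov l Q) (lp : l ≠ p)
    {a : 𝓞 H} (a0 : a ≠ 0) {A B : Ideal (𝓞 H)} (e : Ideal.span {a} = A ^ p * B)
    (hB : ¬ B ≤ below j Q) : Un p (GK j) Q (j a) := by
  refine un_of j o lp (RingOfIntegers.coe_ne_zero_iff.2 a0) fun v hv => ?_
  have s0 : Ideal.span {a} ≠ 0 := by simpa using a0
  have f := FiniteMultiplicity.of_prime_left v.prime s0
  rw [P027M.S.Cls.ordv_of (n := multiplicity v.asIdeal (Ideal.span {a})) (by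
    rw [← v.intValuation_eq_exp_neg_multiplicity a0, HeightOneSpectrum.valuation_of_algebraMap])]
  rw [e] at f s0 ⊢
  rw [multiplicity_mul v.prime f, (multiplicity_eq_zero (b := B)).2 fun k =>
    hB (hv ▸ Ideal.le_of_dvd k), add_zero, FiniteMultiplicity.multiplicity_pow v.prime
      (FiniteMultiplicity.of_prime_left v.prime fun k => s0 (by
        rw [k, zero_pow (Fact.out : p.Prime).ne_zero, zero_mul]))]
  exact ⟨_, Nat.cast_mul _ _⟩

variable (o : Ov l Q) (e : l % p = 1) (F : Frb U l n Q φ)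
include o e F

theorem gz : φ ∈ Gz p := (P014Y.Rd.Mu.dgz o e).2 (fb_dec o F.2.1)

/-- **the symbol vanishes: the roots are local** -/
theorem loc (hU : IsOpen (U : Set GQ)) (a : Un p U Q x) (z : ka p x φ = 0) (hy : y ^ p = x)
    (m : g ∈ U) (d : g ∈ dec Q) : g y = y := by
  have := P022.H443.algQb
  exact gen o hU F (W := MulAction.stabilizer GQ y) (stabilizer_isOpen_of_isIntegral y)
    ((ka_eq_zero a.ne hy (gz o e F) (a.fix _ F.1)).1 z) (fun u m i => (ka_eq_zero a.ne hy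
      (inert_gz o (P014Y.Rd.Mu.dgz o e).1 i) (a.fix u m)).1 (a.un u m i)) m d

theorem loc' (hU : IsOpen (U : Set GQ)) (a : Un p U Q x) (z : ka p x φ = 0) (m : g ∈ U)
    (d : g ∈ dec Q) : ka p x g = 0 :=
  (ka_eq_zero a.ne (rt_pow p x) ((P014Y.Rd.Mu.dgz o e).2 d) (a.fix g m)).2
    (loc o e F hU a z (rt_pow p x) m d)

/-- **invariance under the decomposition group** -/
theorem inv [N : U.Normal] (a : Un p U Q x) (d : g ∈ dec Q) : ka p (g x) φ = ka p x φ := by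
  obtain ⟨lp, le⟩ := P014Y.Rd.Mu.dgz o e
  have b := a.cj o lp d
  have m := N.conj_mem φ F.1 g
  have k := ka_conj a.ne g (gz o e F) (a.fix _ F.1)
  have s := mul_mem (inv_mem F.1) m
  rw [← mul_inv_cancel_left φ (g * φ * g⁻¹), ka_add b.ne (gz o e F) (b.fix _ F.1) (b.fix _ s),
    b.un _ s (fb_div o F.2.1 (fb_conj d F.2.1)), add_zero, mem_Gz.1 (le d), one_mul] at k
  exact k

/-- the symbol of a power times a `p`-th power -/
theorem pw (x0 : x ≠ 0) (hx : φ x = x) (t0 : t ≠ 0) (ht : φ t = t) (a : ℕ) :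
    ka p (x ^ a * t ^ p) φ = a * ka p x φ := by
  rw [ka_mul (pow_ne_zero _ x0) (pow_ne_zero _ t0) (gz o e F) (by rw [map_pow, hx])
    (by rw [map_pow, ht]), ka_pp t0 (gz o e F) ht, add_zero, ka_pow x0 (gz o e F) hx]

/-- **an eigenvalue different from one: the symbol vanishes** -/
theorem eig [U.Normal] (a : Un p U Q x) (d : g ∈ dec Q) {k : ℕ} (t0 : t ≠ 0) (ht : φ t = t)
    (h : g x = x ^ k * t ^ p) (k1 : (k : ZMod p) ≠ 1) : ka p x φ = 0 := by
  have b := inv o e F a d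
  rw [h, pw o e F a.ne (a.fix _ F.1) t0 ht] at b
  exact (mul_left_eq_self₀.1 b).resolve_left k1

/-- the symbol at a conjugate place -/
theorem sm (x0 : x ≠ 0) (hx : φ (h⁻¹ x) = h⁻¹ x) :
    ka p x (h * φ * h⁻¹) = oz p h * ka p (h⁻¹ x) φ := by
  simpa using ka_conj ((map_ne_zero h⁻¹).2 x0) h (gz o e F) hx

end Vale.Agent.P014Z.In.Rs
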