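import Vale.Agent.P022K.G2.Kum

/-! # P014Z, block In: descent of the Kummer class of an eigenvector -/

set_option autoImplicit false
set_option linter.all false

noncomputable section

namespace Vale.Agent.P014Z.In.So

open Vale.Agent.P022 (Qb GQ)
open Vale.Agent.P022K.G2

variable {p : ℕ} [Fact p.Prime] {Γ U D : Subgroup GQ} {θ z : GQ → ZMod p} {β : Qb}

theorem uq (hz : ∃ u ∈ U, oz p u ≠ 1) {k k' : ZMod p} {y y' : Qb} (y0 : y ≠ 0)
    (f : ∀ u ∈ U, u y = y) (f' : ∀ u ∈ U, u y' = y')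
    (e : zt p ^ k.val * y = zt p ^ k'.val * y') : k = k' := by
  obtain ⟨u, m, n⟩ := hz
  have a := congrArg u e
  rw [map_mul, map_mul, oz_pw, oz_pw, f u m, f' u m] at a
  have c : oz p u * k + k' = oz p u * k' + k := pw_inj (mul_right_cancel₀ y0 (by
    rw [pw_add, pw_add]
    linear_combination zt p ^ k'.val * a - zt p ^ (oz p u * k').val * e))
  exact mul_left_cancel₀ (sub_ne_zero.2 n) (by linear_combination c)

/-- **the descent** -/
theorem soc (le : U ≤ Γ) (nU : ∀ g ∈ Γ, ∀ u ∈ U, g⁻¹ * u * g ∈ U) (hz : ∃ u ∈ U, oz p u ≠ 1)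
    (tm : ∀ g ∈ Γ, ∀ h ∈ Γ, θ (g * h) = θ g * θ h) (t1 : ∀ u ∈ U, θ u = 1) (b0 : β ≠ 0)
    (fx : ∀ u ∈ U, u (β ^ p) = β ^ p)
    (eg : ∀ g ∈ Γ, ∃ y : Qb, (∀ u ∈ U, u y = y) ∧ g (β ^ p) = (β ^ p) ^ (θ g).val * y ^ p) :
    ∃ z : GQ → ZMod p, (∀ g ∈ Γ, ∀ h ∈ Γ, z (g * h) = z g + oz p g * (θ g)⁻¹ * z h) ∧
      (∀ g ∉ Γ, z g = 0) ∧ (∀ u ∈ U, u β = zt p ^ (z u).val * β) ∧ ∀ g ∈ Γ, ∃ y : Qb,
        (∀ u ∈ U, u y = y) ∧ g β = zt p ^ (θ g * z g).val * β ^ (θ g).val * y := by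
  classical
  have t0 : ∀ g ∈ Γ, θ g ≠ 0 := fun g m e => by
    have := tm g m _ (Γ.inv_mem m)
    rw [mul_inv_cancel, t1 1 U.one_mem, e, zero_mul] at this
    exact one_ne_zero this
  choose! y f e using eg
  choose! k hk using fun g (m : g ∈ Γ) => ex_log (p := p) (γ := g β) (β := β ^ (θ g).val * y g)
    (by rw [← map_pow, e g m]; ring)
  have y0 : ∀ g ∈ Γ, y g ≠ 0 := fun g m a => (map_ne_zero g).2 b0 (by rw [hk g m, a]; simp)
  refine ⟨fun g => if g ∈ Γ then k g * (θ g)⁻¹ else 0, fun g m h n => ?_, fun g m => if_neg m,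
    fun u m => ?_, fun g m => ⟨y g, f g m, ?_⟩⟩
  · have c : k (g * h) = oz p g * k h + k g * θ h := by
      refine uq hz (y0 _ (Γ.mul_mem m n)) (f _ (Γ.mul_mem m n)) (y' := (β ^ p) ^
        ((θ g).val * (θ h).val / p) * y g ^ (θ h).val * g (y h)) (fun u a => ?_)
        (mul_left_cancel₀ (pow_ne_zero (θ (g * h)).val b0) ?_)
      · rw [map_mul, map_mul, map_pow, fx u a, map_pow, f g m u a]
        congr 1
        rw [← AlgEquiv.mul_apply, show u * g = g * (g⁻¹ * u * g) by group, AlgEquiv.mul_apply,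
          f h n _ (nU g m u a)]
      · have a := hk _ (Γ.mul_mem m n)
        rw [AlgEquiv.mul_apply, hk h n, map_mul, map_mul, oz_pw, map_pow, hk g m] at a
        have d : β ^ ((θ g).val * (θ h).val) = β ^ (θ (g * h)).val *
            (β ^ p) ^ ((θ g).val * (θ h).val / p) := by
          rw [tm g m h n, ZMod.val_mul, ← pow_mul, ← pow_add, Nat.mod_add_div]
        rw [mul_pow, mul_pow, ← pow_mul β, d] at a
        rw [pw_add, pw_mul (k g)]
        linear_combination -a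
    have := t0 g m
    have := t0 h n
    simp only [if_pos m, if_pos n, if_pos (Γ.mul_mem m n), c, tm g m h n]
    field_simp
    ring
  · obtain ⟨a, ha⟩ := ex_log (p := p) (γ := u β) (β := β) (by rw [← map_pow, fx u m])
    have c := hk u (le m)
    rw [t1 u m, ZMod.val_one, pow_one, ha] at c
    simp only [if_pos (le m), t1 u m, inv_one, mul_one]
    rw [uq (k := k u) (k' := a) (y' := 1) hz (y0 u (le m)) (f u (le m)) (fun u _ => map_one u)
      (mul_left_cancel₀ b0 (by linear_combination -c)), ha]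
  · simp only [if_pos m]
    rw [mul_comm (k g), mul_inv_cancel_left₀ (t0 g m), hk g m, mul_assoc]

theorem zero (b0 : β ≠ 0) {u : GQ} {a : ZMod p} (h : u β = zt p ^ a.val * β) (f : u β = β) :
    a = 0 :=
  pw_inj (mul_right_cancel₀ b0 (by rw [← h, f, ZMod.val_zero, pow_zero, one_mul]))

/-- the cocycle vanishes on an open subgroup -/
theorem opn (o : IsOpen (U : Set GQ)) (b0 : β ≠ 0) (h : ∀ u ∈ U, u β = zt p ^ (z u).val * β) :
    ∃ W : Subgroup GQ, IsOpen (W : Set GQ) ∧ W ≤ U ∧ ∀ w ∈ W, z w = 0 :=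
  ⟨U ⊓ MulAction.stabilizer GQ β, o.inter (stab_open β), inf_le_left,
    fun w m => zero b0 (h w m.1) m.2⟩

/-- a coboundary comes from a power -/
theorem rat (h : ∀ u ∈ U, u β = zt p ^ (z u).val * β) {v : ZMod p}
    (c : ∀ u ∈ U, z u = oz p u * v - v) : ∃ y : Qb, y ^ p = β ^ p ∧ ∀ u ∈ U, u y = y :=
  ⟨zt p ^ (-v).val * β, by rw [mul_pow, pw_pow, one_mul], fun u m => by
    rw [map_mul, oz_pw, h u m, ← mul_assoc, ← pw_add, c u m]
    congr 3
    ring⟩

/-- a power gives a coboundary -/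
theorem cob (b0 : β ≠ 0) (h : ∀ u ∈ U, u β = zt p ^ (z u).val * β) {y : Qb} (e : y ^ p = β ^ p) :
    ∃ v : ZMod p, ∀ u ∈ U, u y = y → z u = oz p u * v - v := by
  obtain ⟨a, rfl⟩ := ex_log e
  refine ⟨-a, fun u m f => ?_⟩
  rw [map_mul, oz_pw, h u m, ← mul_assoc, ← pw_add] at f
  linear_combination pw_inj (mul_right_cancel₀ b0 f)

end Vale.Agent.P014Z.In.So
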