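import Vale.Agent.P014Y.Bo.Lv1
import Vale.Agent.P014X.Ac.St
import Vale.Agent.P014Z.In.Soc
import Vale.Agent.P014Z.In.Res

/-! # P014Z, block In: killing bounds the singular numbers (words and rows) -/

set_option autoImplicit false
set_option linter.all false

noncomputable section

namespace Vale.Agent.P014Z.In

open NumberField
open scoped Classical
open Vale.Agent.P022 (Qb GQ)
open Vale.Agent.P027M.S (Inert)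
open Vale.Agent.P022D.W (dec)
open Vale.Agent.P022.H443 (inP)
open Vale.Agent.P022E.GW (Ov Fb)
open Vale.Agent.P022K.G2 (In zt oz)
open Vale.Agent.P014U
open P004K (Ip Zp)
open P014Y.Mu (F X Rs Ly Cl Bl Ur Ot)
open P014Y.Bo (dg Cd)
open P014X.Ac (pw nr)

variable [Pp]

/-- the numbers of the field of `U` -/
def Fx (U : Subgroup GQ) (x : Qb) : Prop := x ≠ 0 ∧ ∀ u ∈ U, u x = x

/-- powers -/
def Pw (U : Subgroup GQ) (x : Qb) : Prop := ∃ y, Fx U y ∧ x = y ^ pp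

/-- `g` acts by `f g` modulo powers -/
def Eg (U : Subgroup GQ) (f : GQ →* F) (x : Qb) (g : GQ) : Prop :=
  ∃ y, Fx U y ∧ g x = x ^ (f g).val * y ^ pp

/-- a unit times a power at `P` -/
def Vl (U : Subgroup GQ) (P : Ideal (𝓞 Qb)) (x : Qb) : Prop :=
  ∃ y, Fx U y ∧ Ip P (x * y ^ pp) ∧ Ip P (x * y ^ pp)⁻¹

/-- the coefficient of `(1 - ζ) ^ j` vanishes -/
def L0 (U : Subgroup GQ) (P : Ideal (𝓞 Qb)) (j : ℕ) (x : Qb) : Prop :=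
  ∃ (y : Qb) (o : ℕ), Fx U y ∧ ¬ pp ∣ o ∧ Zp P ((x ^ o * y ^ pp - 1) / (1 - zt pp) ^ j)

/-- a power at the places above `c` -/
def Rz (U : Subgroup GQ) (c : ℕ) (x : Qb) : Prop :=
  ∀ q Q, Ov q Q → q ∣ c → ∀ β : Qb, β ^ pp = x → ∀ g ∈ U, g ∈ dec Q → g β = β

/-- the data; `U` is the group of the field -/
structure Dt (Γ U : Subgroup GQ) (S : Finset ℕ) (N c j : ℕ) (χ : GQ → ℕ) (σ : ℕ → GQ)
    (f θ : GQ →* F) (P : Ideal (𝓞 Qb)) : Prop where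
  ly : Ly Γ S N c χ
  N0 : 0 < N
  idx : Γ.index = 2
  rs : Rs (dg f θ) S
  mem : ∀ g, g ∈ U ↔ g ∈ Γ ∧ f g = 1 ∧ pp ^ N ∣ χ g
  nm : U.Normal
  opn : IsOpen (U : Set GQ)
  ov : Ov pp P
  ev : Even j ∧ 2 ≤ j ∧ j < pp
  ine : ∀ g, Inert P g → f g = oz pp g ^ j
  fr : ∀ q ∈ c.primeFactors, (∃ Q, Ov q Q ∧ Fb q Q (σ q)) ∧ dg f θ (σ q) = 1 ∧
    ∀ g, pp ∣ χ (g * σ q * g⁻¹)

/-- the eigenspace: all valuations are multiples of `pp` -/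
structure Vf (Γ U : Subgroup GQ) (N : ℕ) (χ : GQ → ℕ) (f : GQ →* F) (x : Qb) : Prop where
  fx : Fx U x
  eg : ∀ g ∈ Γ, pp ^ N ∣ χ g → Eg U f x g
  vl : ∀ l Q, Ov l Q → Vl U Q x

/-- the cocycle of a root -/
structure Kc (Γ U : Subgroup GQ) (θ : GQ →* F) (β : Qb) (z : GQ → F) : Prop where
  ne : β ≠ 0
  coc : ∀ g ∈ Γ, ∀ h ∈ Γ, z (g * h) = z g + θ g * z h
  res : ∀ u ∈ U, u β = zt pp ^ (z u).val * β

/-- the class in the plane -/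
def pl (z : GQ → F) : X := fun g => ![0, z g]

/-- killed -/
def Kk (Γ : Subgroup GQ) (S : Finset ℕ) (c : ℕ) (σ : ℕ → GQ) (f θ : GQ →* F) (P : Ideal (𝓞 Qb)) :
    Prop := ∀ y, Cd (dg f θ) Γ S c.primeFactors σ P y → y ∈ Bl (dg f θ) Γ

/-! ### local rows -/

/-- tame inertia fixes the roots -/
def TMR : Prop := ∀ (U : Subgroup GQ) l Q (β : Qb), Ov l Q → l ≠ pp → Fx U (β ^ pp) →
  Vl U Q (β ^ pp) → ∀ g ∈ U, Inert Q g → g β = β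

/-- wild inertia fixes the roots -/
def WLD : Prop := ∀ Γ U S N c j χ σ f θ P, Dt Γ U S N c j χ σ f θ P → ∀ β : Qb, Fx U (β ^ pp) →
  (∀ g, Inert P g → Eg U f (β ^ pp) g) → L0 U P j (β ^ pp) →
  ∀ g, Inert P g → oz pp g = 1 → g β = β

/-- the classes which vanish form a group -/
def LGP : Prop := ∀ U P j (x x' : Qb), Ov pp P → L0 U P j x → L0 U P j x' → x ≠ 0 → x' ≠ 0 →
  L0 U P j (x / x')

/-- the local socle is a line -/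
def LIN : Prop := ∀ Γ U S N c j χ σ f θ P, Dt Γ U S N c j χ σ f θ P → ∀ x x' : Qb, Fx U x →
  Fx U x' → Vl U P x → Vl U P x' → (∀ g ∈ dec P, Eg U f x g ∧ Eg U f x' g) →
  L0 U P j x ∨ ∃ t : ℕ, L0 U P j (x' * x ^ t)

/-- the conditions away from `pp` -/
def TAM : Prop := ∀ Γ U S N c j χ σ f θ P, Dt Γ U S N c j χ σ f θ P → ∀ β z, Kc Γ U θ β z →
  Vf Γ U N χ f (β ^ pp) → Rz U c (β ^ pp) →
  (∀ g ∈ Γ, g ∈ In ((S ∪ c.primeFactors : Finset ℕ) : Set ℕ) → z g = 0) ∧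
  (∀ l ∈ S, l ≠ pp → ∀ Q, Ov l Q → pl z ∈ Bl (dg f θ) (inP Q)) ∧
  ∀ q ∈ c.primeFactors, ∀ g, z (g * σ q * g⁻¹) = 0

/-- the cocycle, and the strict condition -/
def PLC : Prop := ∀ Γ U S N c j χ σ f θ P, Dt Γ U S N c j χ σ f θ P → ∀ β z, Kc Γ U θ β z →
  (∀ D ≤ Γ, pl z ∈ Cl (dg f θ) D) ∧
  ((∀ g, Inert P g → oz pp g = 1 → g β = β) → pl z ∈ Bl (dg f θ) (inP P)) ∧
  (pl z ∈ Bl (dg f θ) Γ → Pw U (β ^ pp))

/-- the flat condition -/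
def FLT : Prop := ∀ Γ U S N c j χ σ f θ P, Dt Γ U S N c j χ σ f θ P → ∀ β z, Kc Γ U θ β z →
  Fx U (β ^ pp) → ∀ Q, Ov pp Q → Vl U Q (β ^ pp) → pl z ∈ Ot (dg f θ) (dec Q) (Ur (dg f θ) Q)

/-- descent of the socle -/
def SOC : Prop := ∀ Γ U S N c j χ σ f θ P, Dt Γ U S N c j χ σ f θ P → ∀ β : Qb, Fx U (β ^ pp) →
  (∀ g ∈ Γ, Eg U f (β ^ pp) g) → ∃ z, Kc Γ U θ β z

/-- residues -/
def RZ : Prop := ∀ Γ U S N c j χ σ f θ P, Dt Γ U S N c j χ σ f θ P →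
  (∃ φ : c.primeFactors × Bool → GQ,
    (∀ i, φ i ∈ U ∧ oz pp (φ i) = 1 ∧ ∃ q Q, Ov q Q ∧ q ∣ c ∧ φ i ∈ dec Q) ∧ ∀ β : Qb,
    Vf Γ U N χ f (β ^ pp) → (∀ i, φ i β = β) → Rz U c (β ^ pp)) ∧
  ∀ x, Vf Γ U N χ f x → ∀ γ ∈ Γ, f γ = 1 → Vf Γ U N χ f (γ x / x) ∧ Rz U c (γ x / x)

/-! ### algebra -/

/-- the count by the socle -/
def ACN : Prop := ∀ (M : Type) [AddCommGroup M] (p k s : ℕ) (g : AddMonoid.End M)
  (W W₀ : AddSubgroup M), p.Prime → pw M p ≤ W₀ → W₀ ≤ W → (∀ x ∈ W, g x - x ∈ W₀) →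
  (∀ x ∈ W, nr p k g x ∈ pw M p) → W₀.relIndex W ≠ 0 → W₀.relIndex W ≤ p ^ s →
  (∀ x ∈ W₀, ∀ x' ∈ W₀, g x - x ∈ pw M p → g x' - x' ∈ pw M p →
    x ∈ pw M p ∨ ∃ t : ℕ, x' + t • x ∈ pw M p) →
  (pw M p).relIndex W ≠ 0 ∧ (pw M p).relIndex W ≤ p ^ ((p - 1) * p ^ k + s)

/-! ### exports -/

/-- **the socle** -/
def SI : Prop := ∀ Γ U S N c j χ σ f θ P, Dt Γ U S N c j χ σ f θ P → Kk Γ S c σ f θ P →
  ∀ x, Vf Γ U N χ f x → (∀ g ∈ Γ, Eg U f x g) → L0 U P j x → Rz U c x → Pw U x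

/-- **injectivity** -/
def INJ : Prop := ∀ Γ U S N c j χ σ f θ P, Dt Γ U S N c j χ σ f θ P → Kk Γ S c σ f θ P →
  ∀ x, Vf Γ U N χ f x → (∀ g ∈ Γ, L0 U P j (g x)) → Rz U c x → Pw U x

/-- **the count** -/
def CNT : Prop := ∀ Γ U S k c j χ σ f θ P, Dt Γ U S (k + 1) c j χ σ f θ P → Kk Γ S c σ f θ P →
  ∀ (H : Type) [Field H] (jH : H →+* Qb), (∀ x, x ∈ jH.range ↔ ∀ u ∈ U, u x = x) →
  ∀ γ ∈ Γ, f γ = 1 → ¬ pp ∣ χ γ → ∀ W : Subgroup Hˣ, (powMonoidHom pp : Hˣ →* Hˣ).range ≤ W →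
  (∀ x ∈ W, (∃ y ∈ W, γ (jH x) = jH y) ∧ Vf Γ U (k + 1) χ f (jH x) ∧
    Pw U (∏ i ∈ Finset.range pp, ((γ ^ pp ^ k) ^ i) (jH x))) →
  (powMonoidHom pp : Hˣ →* Hˣ).range.relIndex W ≠ 0 ∧
    (powMonoidHom pp : Hˣ →* Hˣ).range.relIndex W ≤
      pp ^ ((pp - 1) * pp ^ k + 2 * c.primeFactors.card)

/-! ### glue -/

theorem si (wld : WLD) (tam : TAM) (plc : PLC) (flt : FLT) (soc : SOC) : SI := by
  intro Γ U S N c j χ σ f θ P D K x v eg l0 rz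
  obtain ⟨β, rfl⟩ := IsAlgClosed.exists_pow_nat_eq x pp_prime.pos
  obtain ⟨z, k⟩ := soc _ _ _ _ _ _ _ _ _ _ _ D β v.fx eg
  obtain ⟨t1, t2, t3⟩ := tam _ _ _ _ _ _ _ _ _ _ _ D β z k v rz
  obtain ⟨p1, p2, p3⟩ := plc _ _ _ _ _ _ _ _ _ _ _ D β z k
  have le := (D.ly.fro pp D.rs.pm P D.ov).1
  have z0 : ∀ g, z g = 0 → pl z g = 0 := fun g e => by
    rw [pl, e]; exact funext (Fin.forall_fin_two.2 ⟨rfl, rfl⟩)
  exact p3 (K _ ⟨p1 _ le_rfl, fun g m i => z0 g (t1 g m i),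
    fun l m n Q o => ⟨p1 _ (D.ly.fro l m Q o).1, t2 l m n Q o⟩, fun q m g => z0 _ (t3 q m g),
    ⟨p1 _ le, p2 (wld _ _ _ _ _ _ _ _ _ _ _ D β v.fx
      (fun g i => eg g (le (P022D.W.inP_le_dec i))) l0)⟩,
    fun Q o => flt _ _ _ _ _ _ _ _ _ _ _ D β z k v.fx Q o (v.vl _ Q o)⟩)

end Vale.Agent.P014Z.In
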